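import Vale.Agent.P161.Tree

/-!
# The Ising measure on finite subtrees and the influence of one observation
-/

namespace Vale.Agent.P161

open SimpleGraph

variable {V : Type*} {G : SimpleGraph V} {θ : ℝ}

open Classical in
/-- The configuration with plus spins exactly on `s`. -/
noncomputable def cfg (s : Finset V) : V → Bool := fun v => decide (v ∈ s)

/-- The weight of a configuration on a finite subtree. -/
noncomputable def prior (G : SimpleGraph V) (θ : ℝ) (A : Finset V) (η : V → Bool) : ℝ :=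
  (1 / 2) * ∏ e ∈ edgesIn G A, edgeWeight θ η e

open Classical in
/-- Expectation over the configurations on `A`. -/
noncomputable def Ev (G : SimpleGraph V) (θ : ℝ) (A : Finset V) (f : (V → Bool) → ℝ) : ℝ :=
  ∑ s ∈ A.powerset, prior G θ A (cfg s) * f (cfg s)

/-- Likelihood of the observations in `S`. -/
noncomputable def lik (ε : ℝ) (S : Finset (V × ℕ)) (η : V → Bool) (y : V × ℕ → ℝ) : ℝ :=
  ∏ j ∈ S, (1 + ε * spin (η j.1) * (2 * y j - 1))

lemma spin_mul_self (b : Bool) : spin b * spin b = 1 := by cases b <;> simp [spin]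

lemma abs_spin (b : Bool) : |spin b| = 1 := by cases b <;> simp [spin]

lemma spin_cases (b : Bool) : spin b = 1 ∨ spin b = -1 := by cases b <;> simp [spin]

lemma edgeWeight_mk (η : V → Bool) (u v : V) :
    edgeWeight θ η s(u, v) = (1 + θ * spin (η u) * spin (η v)) / 2 := rfl

open Classical in
lemma mem_edgesIn {A : Finset V} {u v : V} :
    s(u, v) ∈ edgesIn G A ↔ G.Adj u v ∧ u ∈ A ∧ v ∈ A := by
  simp [edgesIn, and_comm, and_assoc]

lemma prior_congr {A : Finset V} {η η' : V → Bool} (h : ∀ v ∈ A, η v = η' v) :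
    prior G θ A η = prior G θ A η' := by
  unfold prior
  congr 1
  refine Finset.prod_congr rfl fun e he => ?_
  induction e using Sym2.ind with
  | _ u v =>
    obtain ⟨-, hu, hv⟩ := mem_edgesIn.mp he
    rw [edgeWeight_mk, edgeWeight_mk, h u hu, h v hv]

lemma edgeWeight_pos (hθ : |θ| < 1) (η : V → Bool) (e : Sym2 V) : 0 < edgeWeight θ η e := by
  induction e using Sym2.ind with
  | _ u v =>
    rw [edgeWeight_mk]
    obtain ⟨h1, h2⟩ := abs_lt.mp hθ
    rcases spin_cases (η u) with a | a <;> rcases spin_cases (η v) with b | b <;> rw [a, b] <;>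
      linarith

lemma prior_pos (hθ : |θ| < 1) (A : Finset V) (η : V → Bool) : 0 < prior G θ A η :=
  mul_pos (by norm_num) (Finset.prod_pos fun e _ => edgeWeight_pos hθ η e)

open Classical in
lemma prior_leaf {A : Finset V} {x z : V} (hx : x ∈ A) (hz : z ∈ A.erase x) (hxz : G.Adj x z)
    (huniq : ∀ w ∈ A, G.Adj x w → w = z) (η : V → Bool) :
    prior G θ A η = prior G θ (A.erase x) η * ((1 + θ * spin (η x) * spin (η z)) / 2) := by
  have hE : edgesIn G A = insert s(x, z) (edgesIn G (A.erase x)) := by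
    ext e
    induction e using Sym2.ind with
    | _ u v =>
      simp only [Finset.mem_insert, mem_edgesIn, Finset.mem_erase, Sym2.eq_iff]
      constructor
      · rintro ⟨huv, hu, hv⟩
        by_cases hux : u = x
        · subst hux
          exact Or.inl (Or.inl ⟨rfl, huniq v hv huv⟩)
        · by_cases hvx : v = x
          · subst hvx
            exact Or.inl (Or.inr ⟨huniq u hu huv.symm, rfl⟩)
          · exact Or.inr ⟨huv, ⟨hux, hu⟩, hvx, hv⟩
      · rintro ((⟨rfl, rfl⟩ | ⟨rfl, rfl⟩) | ⟨h, ⟨-, hu⟩, -, hv⟩)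
        · exact ⟨hxz, hx, (Finset.mem_erase.mp hz).2⟩
        · exact ⟨hxz.symm, (Finset.mem_erase.mp hz).2, hx⟩
        · exact ⟨h, hu, hv⟩
  have hn : s(x, z) ∉ edgesIn G (A.erase x) := by
    rw [mem_edgesIn]; simp
  unfold prior
  rw [hE, Finset.prod_insert hn, edgeWeight_mk]; ring

lemma Ev_congr {A : Finset V} {f g : (V → Bool) → ℝ} (h : ∀ η, f η = g η) :
    Ev G θ A f = Ev G θ A g := by
  simp only [Ev, h]

lemma Ev_add {A : Finset V} (f g : (V → Bool) → ℝ) :
    Ev G θ A (fun η => f η + g η) = Ev G θ A f + Ev G θ A g := by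
  simp only [Ev, mul_add, Finset.sum_add_distrib]

lemma Ev_const_mul {A : Finset V} (c : ℝ) (f : (V → Bool) → ℝ) :
    Ev G θ A (fun η => c * f η) = c * Ev G θ A f := by
  simp only [Ev, Finset.mul_sum]
  exact Finset.sum_congr rfl fun s _ => by ring

lemma Ev_mono (hθ : |θ| < 1) {A : Finset V} {f g : (V → Bool) → ℝ} (h : ∀ η, f η ≤ g η) :
    Ev G θ A f ≤ Ev G θ A g :=
  Finset.sum_le_sum fun s _ => mul_le_mul_of_nonneg_left (h _) (prior_pos hθ A _).le

lemma abs_Ev_le (hθ : |θ| < 1) {A : Finset V} (f : (V → Bool) → ℝ) :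
    |Ev G θ A f| ≤ Ev G θ A fun η => |f η| := by
  refine (Finset.abs_sum_le_sum_abs _ _).trans_eq (Finset.sum_congr rfl fun s _ => ?_)
  rw [abs_mul, abs_of_pos (prior_pos hθ A _)]

lemma Ev_pos (hθ : |θ| < 1) {A : Finset V} {f : (V → Bool) → ℝ} (h : ∀ η, 0 < f η) :
    0 < Ev G θ A f :=
  Finset.sum_pos (fun s _ => mul_pos (prior_pos hθ A _) (h _)) ⟨∅, by simp⟩

open Classical in
/-- Marginals of subtrees are consistent. -/
lemma Ev_mono_set (hG : G.IsTree) {A A' : Finset V} (hA : Convex' G A) (hA' : Convex' G A')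
    (hne : A.Nonempty) (hsub : A ⊆ A') (f : (V → Bool) → ℝ)
    (hf : ∀ η η' : V → Bool, (∀ v ∈ A, η v = η' v) → f η = f η') :
    Ev G θ A' f = Ev G θ A f := by
  induction A' using Finset.strongInduction with
  | _ A' ih =>
    by_cases hd : (A' \ A).Nonempty
    · obtain ⟨x, z, hx, hxA, hz, hxz, huniq, hconv⟩ := exists_leaf hG hA hA' hne hsub hd
      have hsub' : A ⊆ A'.erase x := fun a ha =>
        Finset.mem_erase.mpr ⟨fun e => hxA (e ▸ ha), hsub ha⟩
      rw [← ih _ (Finset.erase_ssubset hx) hconv hsub']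
      have hne' : x ∉ A'.erase x := Finset.notMem_erase x A'
      conv_lhs => rw [Ev, ← Finset.insert_erase hx, Finset.sum_powerset_insert hne']
      rw [Finset.insert_erase hx, ← Finset.sum_add_distrib]
      refine Finset.sum_congr rfl fun s hs => ?_
      have hxs : x ∉ s := fun h => hne' (Finset.mem_powerset.mp hs h)
      have hfe : f (cfg (insert x s)) = f (cfg s) := hf _ _ fun v hv => by
        have : v ≠ x := fun e => hxA (e ▸ hv)
        simp [cfg, this]
      have hpe : prior G θ (A'.erase x) (cfg (insert x s)) = prior G θ (A'.erase x) (cfg s) :=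
        prior_congr fun v hv => by
          simp [cfg, (Finset.mem_erase.mp hv).1]
      have hzx : z ≠ x := (Finset.mem_erase.mp hz).1
      rw [prior_leaf hx hz hxz huniq, prior_leaf hx hz hxz huniq, hfe, hpe]
      have e1 : spin (cfg s x) = -1 := by simp [cfg, spin, hxs]
      have e2 : spin (cfg (insert x s) x) = 1 := by simp [cfg, spin]
      have e3 : spin (cfg (insert x s) z) = spin (cfg s z) := by simp [cfg, hzx]
      rw [e1, e2, e3]; ring
    · have : A' = A := Finset.Subset.antisymm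
        (Finset.sdiff_eq_empty_iff_subset.mp (Finset.not_nonempty_iff_eq_empty.mp hd)) hsub
      rw [this]

open Classical in
lemma Ev_singleton (a : V) (f : (V → Bool) → ℝ) :
    Ev G θ {a} f = (f (cfg {a}) + f (cfg ∅)) / 2 := by
  have hE : edgesIn G ({a} : Finset V) = ∅ := by
    ext e
    induction e using Sym2.ind with
    | _ u v =>
      simp only [mem_edgesIn, Finset.mem_singleton, Finset.notMem_empty, iff_false]
      rintro ⟨h, rfl, rfl⟩
      exact G.irrefl h
  have : ({a} : Finset V).powerset = {∅, {a}} := by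
    ext t; simp [Finset.subset_singleton_iff]
  rw [Ev, this, Finset.sum_pair (by simp)]
  simp [prior, hE]; ring

lemma convex_singleton (hG : G.Connected) (a : V) : Convex' G {a} := by
  intro x hx y hy z hz
  rw [Finset.mem_singleton] at hx hy ⊢
  subst hx hy
  rw [dist_self] at hz
  exact (hG.dist_eq_zero_iff.mp (by omega : G.dist y z = 0)).symm

lemma Ev_one (hG : G.IsTree) {A : Finset V} (hA : Convex' G A) (hne : A.Nonempty) :
    Ev G θ A (fun _ => 1) = 1 := by
  obtain ⟨a, ha⟩ := hne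
  rw [Ev_mono_set hG (convex_singleton hG.connected a) hA (Finset.singleton_nonempty a)
    (Finset.singleton_subset_iff.mpr ha) _ (fun _ _ _ => rfl), Ev_singleton]
  norm_num

open Classical in
/-- Cutting a subtree at an edge. -/
lemma Ev_split (hG : G.IsTree) {A : Finset V} {u u' : V} (hu : u ∈ A) (hu' : u' ∈ A)
    (h : G.Adj u u') (F₁ F₂ : (V → Bool) → ℝ)
    (h1 : ∀ η η' : V → Bool, (∀ v ∈ A.filter (fun x => ¬ Far G u u' x), η v = η' v) →
      F₁ η = F₁ η')
    (h2 : ∀ η η' : V → Bool, (∀ v ∈ A.filter (fun x => Far G u u' x), η v = η' v) →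
      F₂ η = F₂ η') :
    Ev G θ A (fun η => F₁ η * F₂ η) =
      Ev G θ (A.filter fun x => ¬ Far G u u' x) F₁ * Ev G θ (A.filter fun x => Far G u u' x) F₂ +
      θ * (Ev G θ (A.filter fun x => ¬ Far G u u' x) (fun η => spin (η u) * F₁ η) *
        Ev G θ (A.filter fun x => Far G u u' x) (fun η => spin (η u') * F₂ η)) := by
  set A₁ := A.filter (fun x => ¬ Far G u u' x) with hA₁
  set A₂ := A.filter (fun x => Far G u u' x) with hA₂
  have hu1 : u ∈ A₁ := Finset.mem_filter.mpr ⟨hu, not_far_self⟩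
  have hu2 : u' ∈ A₂ := Finset.mem_filter.mpr ⟨hu', far_self h⟩
  have hE : edgesIn G A = insert s(u, u') (edgesIn G A₁ ∪ edgesIn G A₂) := by
    ext e
    induction e using Sym2.ind with
    | _ x y =>
      simp only [Finset.mem_insert, Finset.mem_union, mem_edgesIn, hA₁, hA₂, Finset.mem_filter,
        Sym2.eq_iff]
      constructor
      · rintro ⟨hxy, hx, hy⟩
        by_cases hfx : Far G u u' x <;> by_cases hfy : Far G u u' y
        · exact Or.inr (Or.inr ⟨hxy, ⟨hx, hfx⟩, hy, hfy⟩)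
        · obtain ⟨rfl, rfl⟩ := crossing hG h hxy.symm hfy hfx
          exact Or.inl (Or.inr ⟨rfl, rfl⟩)
        · obtain ⟨rfl, rfl⟩ := crossing hG h hxy hfx hfy
          exact Or.inl (Or.inl ⟨rfl, rfl⟩)
        · exact Or.inr (Or.inl ⟨hxy, ⟨hx, hfx⟩, hy, hfy⟩)
      · rintro ((⟨rfl, rfl⟩ | ⟨rfl, rfl⟩) | ⟨hxy, hx, hy⟩ | ⟨hxy, hx, hy⟩)
        · exact ⟨h, hu, hu'⟩
        · exact ⟨h.symm, hu', hu⟩
        · exact ⟨hxy, hx.1, hy.1⟩
        · exact ⟨hxy, hx.1, hy.1⟩
  have hn1 : s(u, u') ∉ edgesIn G A₁ ∪ edgesIn G A₂ := by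
    simp only [Finset.mem_union, mem_edgesIn, hA₁, hA₂, Finset.mem_filter]
    rintro (⟨-, -, -, hh⟩ | ⟨-, ⟨-, hh⟩, -⟩)
    · exact hh (far_self h)
    · exact not_far_self hh
  have hdisjA : Disjoint A₁ A₂ := by
    rw [Finset.disjoint_left]
    intro x hx hx'
    exact (Finset.mem_filter.mp hx).2 (Finset.mem_filter.mp hx').2
  have hn2 : Disjoint (edgesIn G A₁) (edgesIn G A₂) := by
    rw [Finset.disjoint_left]
    intro e
    induction e using Sym2.ind with
    | _ x y =>
      rw [mem_edgesIn, mem_edgesIn]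
      rintro ⟨-, hx, -⟩ ⟨-, hx', -⟩
      exact Finset.disjoint_left.mp hdisjA hx hx'
  have hprior : ∀ η, prior G θ A η =
      prior G θ A₁ η * prior G θ A₂ η * (1 + θ * spin (η u) * spin (η u')) := by
    intro η
    unfold prior
    rw [hE, Finset.prod_insert hn1, Finset.prod_union hn2, edgeWeight_mk]
    ring
  have key : ∀ f : (V → Bool) → ℝ, Ev G θ A f = ∑ s ∈ A₁.powerset, ∑ t ∈ A₂.powerset,
      prior G θ A (cfg (s ∪ t)) * f (cfg (s ∪ t)) := by
    intro f
    rw [← Finset.sum_product']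
    refine Finset.sum_nbij' (fun w => (w ∩ A₁, w ∩ A₂)) (fun p => p.1 ∪ p.2) ?_ ?_ ?_ ?_ ?_
    · intro w _
      simp
    · intro p hp
      simp only [Finset.mem_product, Finset.mem_powerset] at hp ⊢
      exact Finset.union_subset (hp.1.trans (Finset.filter_subset _ _))
        (hp.2.trans (Finset.filter_subset _ _))
    · intro w hw
      ext x
      have := Finset.mem_powerset.mp hw
      simp only [hA₁, hA₂, Finset.mem_union, Finset.mem_inter, Finset.mem_filter]
      constructor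
      · tauto
      · intro hx; by_cases hf : Far G u u' x <;> simp_all [this hx]
    · intro p hp
      simp only [Finset.mem_product, Finset.mem_powerset] at hp
      have d1 : p.2 ∩ A₁ = ∅ := Finset.disjoint_iff_inter_eq_empty.mp
        (hdisjA.symm.mono_left hp.2)
      have d2 : p.1 ∩ A₂ = ∅ := Finset.disjoint_iff_inter_eq_empty.mp (hdisjA.mono_left hp.1)
      simp [Finset.union_inter_distrib_right, d1, d2, Finset.inter_eq_left.mpr hp.1,
        Finset.inter_eq_left.mpr hp.2]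
    · intro w hw
      have := Finset.mem_powerset.mp hw
      have e : w ∩ A₁ ∪ w ∩ A₂ = w := by
        ext x
        simp only [hA₁, hA₂, Finset.mem_union, Finset.mem_inter, Finset.mem_filter]
        constructor
        · tauto
        · intro hx; by_cases hf : Far G u u' x <;> simp_all [this hx]
      rw [e]
  rw [key]
  simp only [Ev]
  rw [Finset.sum_mul_sum, Finset.sum_mul_sum, Finset.mul_sum, ← Finset.sum_add_distrib]
  refine Finset.sum_congr rfl fun s hs => ?_
  rw [Finset.mul_sum, ← Finset.sum_add_distrib]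
  refine Finset.sum_congr rfl fun t ht => ?_
  rw [Finset.mem_powerset] at hs ht
  have c1 : ∀ v ∈ A₁, cfg (s ∪ t) v = cfg s v := fun v hv => by
    simp [cfg, show v ∉ t from fun hh => Finset.disjoint_left.mp hdisjA hv (ht hh)]
  have c2 : ∀ v ∈ A₂, cfg (s ∪ t) v = cfg t v := fun v hv => by
    simp [cfg, show v ∉ s from fun hh => Finset.disjoint_left.mp hdisjA (hs hh) hv]
  rw [hprior, prior_congr c1, prior_congr c2, h1 _ _ c1, h2 _ _ c2, c1 u hu1, c2 u' hu2]
  ring

lemma lik_congr {ε : ℝ} {S : Finset (V × ℕ)} {η η' : V → Bool}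
    (h : ∀ j ∈ S, η j.1 = η' j.1) (y : V × ℕ → ℝ) : lik ε S η y = lik ε S η' y :=
  Finset.prod_congr rfl fun j hj => by rw [h j hj]

lemma lik_pos {ε : ℝ} (hε : 0 ≤ ε) (hε1 : ε < 1) {S : Finset (V × ℕ)} {y : V × ℕ → ℝ}
    (hy : ∀ j, y j ∈ Set.Icc (0 : ℝ) 1) (η : V → Bool) : 0 < lik ε S η y := by
  refine Finset.prod_pos fun j _ => ?_
  obtain ⟨h1, h2⟩ := hy j
  rcases spin_cases (η j.1) with e | e <;> rw [e] <;> nlinarith

lemma indicator_le (b : Bool) : 0 ≤ (1 + spin b) / 2 ∧ 0 ≤ (1 - spin b) / 2 := by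
  cases b <;> simp [spin]

/-- Positivity of the mass of each value of one spin. -/
lemma Ev_cond_pos (hθ : |θ| < 1) {A : Finset V} {u : V} (hu : u ∈ A) {W : (V → Bool) → ℝ}
    (hW : ∀ η, 0 < W η) :
    0 < Ev G θ A (fun η => (1 + spin (η u)) / 2 * W η) ∧
      0 < Ev G θ A (fun η => (1 - spin (η u)) / 2 * W η) := by
  classical
  constructor
  · refine Finset.sum_pos' (fun s _ => mul_nonneg (prior_pos hθ A _).le
      (mul_nonneg (indicator_le _).1 (hW _).le)) ⟨{u}, by simp [hu], ?_⟩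
    refine mul_pos (prior_pos hθ A _) (mul_pos ?_ (hW _))
    simp [cfg, spin]
  · refine Finset.sum_pos' (fun s _ => mul_nonneg (prior_pos hθ A _).le
      (mul_nonneg (indicator_le _).2 (hW _).le)) ⟨∅, by simp, ?_⟩
    refine mul_pos (prior_pos hθ A _) (mul_pos ?_ (hW _))
    simp [cfg, spin]

lemma mixture_step {θ Bp Bm Rp Rm r : ℝ} (hθ0 : 0 ≤ θ) (hθ : θ < 1) (bp : 0 < Bp) (bm : 0 < Bm)
    (IH : |Rp / Bp - Rm / Bm| ≤ r) :
    |(Rp + Rm + θ * (Rp - Rm)) / (Bp + Bm + θ * (Bp - Bm)) -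
      (Rp + Rm - θ * (Rp - Rm)) / (Bp + Bm - θ * (Bp - Bm))| ≤ θ * r := by
  have dp : 0 < Bp + Bm + θ * (Bp - Bm) := by nlinarith
  have dm : 0 < Bp + Bm - θ * (Bp - Bm) := by nlinarith
  have e1 : Rp / Bp - Rm / Bm = (Rp * Bm - Rm * Bp) / (Bp * Bm) := by
    rw [div_sub_div _ _ bp.ne' bm.ne']; ring
  have e2 : (Rp + Rm + θ * (Rp - Rm)) / (Bp + Bm + θ * (Bp - Bm)) -
      (Rp + Rm - θ * (Rp - Rm)) / (Bp + Bm - θ * (Bp - Bm)) =
      4 * θ * (Rp * Bm - Rm * Bp) / ((Bp + Bm + θ * (Bp - Bm)) * (Bp + Bm - θ * (Bp - Bm))) := by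
    rw [div_sub_div _ _ dp.ne' dm.ne']; ring
  rw [e1, abs_div, abs_of_pos (mul_pos bp bm), div_le_iff₀ (mul_pos bp bm)] at IH
  rw [e2, abs_div, abs_mul, abs_of_nonneg (by linarith : (0 : ℝ) ≤ 4 * θ),
    abs_of_pos (mul_pos dp dm), div_le_iff₀ (mul_pos dp dm)]
  have hr : 0 ≤ r := by nlinarith [abs_nonneg (Rp * Bm - Rm * Bp), mul_pos bp bm]
  have h2 : θ * θ ≤ 1 := by nlinarith
  nlinarith [mul_le_mul_of_nonneg_left IH (by linarith : (0 : ℝ) ≤ 4 * θ),
    mul_nonneg (mul_nonneg hθ0 hr) (mul_nonneg (sub_nonneg.mpr h2) (mul_self_nonneg (Bp - Bm)))]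

lemma observation_step {ε x x' Kp Km Lp Lm r : ℝ} (hε : 0 ≤ ε) (hε1 : ε ≤ 1 / 4)
    (bx : |x| ≤ 1) (bx' : |x'| ≤ 1) (kp : 0 < Kp) (km : 0 < Km)
    (IH : |Lp / Kp - Lm / Km| ≤ r) :
    |((1 + ε * x) * Lp + (1 - ε * x) * Lm) / ((1 + ε * x) * Kp + (1 - ε * x) * Km) -
      ((1 + ε * x') * Lp + (1 - ε * x') * Lm) / ((1 + ε * x') * Kp + (1 - ε * x') * Km)| ≤
      ε * (|x - x'| * r) := by
  have low : ∀ t : ℝ, |t| ≤ 1 → 3 / 4 * (Kp + Km) ≤ (1 + ε * t) * Kp + (1 - ε * t) * Km :=
    fun t ht => by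
      obtain ⟨a, b⟩ := abs_le.mp ht
      have h1 : 3 / 4 ≤ 1 + ε * t := by nlinarith
      have h2 : 3 / 4 ≤ 1 - ε * t := by nlinarith
      nlinarith
  have hd := low x bx
  have hd' := low x' bx'
  have dpos : 0 < (1 + ε * x) * Kp + (1 - ε * x) * Km := by linarith
  have dpos' : 0 < (1 + ε * x') * Kp + (1 - ε * x') * Km := by linarith
  have e1 : Lp / Kp - Lm / Km = (Lp * Km - Lm * Kp) / (Kp * Km) := by
    rw [div_sub_div _ _ kp.ne' km.ne']; ring
  have e2 : ((1 + ε * x) * Lp + (1 - ε * x) * Lm) / ((1 + ε * x) * Kp + (1 - ε * x) * Km) -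
      ((1 + ε * x') * Lp + (1 - ε * x') * Lm) / ((1 + ε * x') * Kp + (1 - ε * x') * Km) =
      2 * ε * ((x - x') * (Lp * Km - Lm * Kp)) /
        (((1 + ε * x) * Kp + (1 - ε * x) * Km) * ((1 + ε * x') * Kp + (1 - ε * x') * Km)) := by
    rw [div_sub_div _ _ dpos.ne' dpos'.ne']; ring
  rw [e1, abs_div, abs_of_pos (mul_pos kp km), div_le_iff₀ (mul_pos kp km)] at IH
  have hr : 0 ≤ r := by nlinarith [abs_nonneg (Lp * Km - Lm * Kp), mul_pos kp km]
  rw [e2, abs_div, abs_mul, abs_mul, abs_mul, abs_of_nonneg (by linarith : (0 : ℝ) ≤ 2),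
    abs_of_nonneg hε, abs_of_pos (mul_pos dpos dpos'), div_le_iff₀ (mul_pos dpos dpos')]
  have h3 : 2 * (Kp * Km) ≤
      ((1 + ε * x) * Kp + (1 - ε * x) * Km) * ((1 + ε * x') * Kp + (1 - ε * x') * Km) :=
    le_trans (by nlinarith [sq_nonneg (Kp - Km)]) (mul_le_mul hd hd' (by positivity) dpos.le)
  calc 2 * ε * (|x - x'| * |Lp * Km - Lm * Kp|)
      ≤ 2 * ε * (|x - x'| * (r * (Kp * Km))) :=
        mul_le_mul_of_nonneg_left (mul_le_mul_of_nonneg_left IH (abs_nonneg _)) (by linarith)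
    _ = ε * (|x - x'| * r) * (2 * (Kp * Km)) := by ring
    _ ≤ _ := mul_le_mul_of_nonneg_left h3 (mul_nonneg hε (mul_nonneg (abs_nonneg _) hr))

open Classical in
/-- Conditioning on the spin at `u` changes the mean spin at `v` by at most `2 θ ^ dist`. -/
lemma influence (hG : G.IsTree) (hθ0 : 0 ≤ θ) (hθ : θ < 1) {ε : ℝ} (hε : 0 ≤ ε) (hε1 : ε < 1)
    {y : V × ℕ → ℝ} (hy : ∀ j, y j ∈ Set.Icc (0 : ℝ) 1) :
    ∀ (n : ℕ) (A : Finset V) (S : Finset (V × ℕ)) (u v : V), Convex' G A → (∀ j ∈ S, j.1 ∈ A) →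
      u ∈ A → v ∈ A → G.dist u v = n →
      |Ev G θ A (fun η => (1 + spin (η u)) / 2 * (lik ε S η y * spin (η v))) /
          Ev G θ A (fun η => (1 + spin (η u)) / 2 * lik ε S η y) -
        Ev G θ A (fun η => (1 - spin (η u)) / 2 * (lik ε S η y * spin (η v))) /
          Ev G θ A (fun η => (1 - spin (η u)) / 2 * lik ε S η y)| ≤ 2 * θ ^ n := by
  have habs : |θ| < 1 := by rwa [abs_of_nonneg hθ0]
  intro n
  induction n with
  | zero =>
    intro A S u v _ _ hu _ hd
    obtain rfl := hG.connected.dist_eq_zero_iff.mp hd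
    obtain ⟨p1, p2⟩ := Ev_cond_pos (G := G) habs hu (fun η => lik_pos (S := S) hε hε1 hy η)
    rw [Ev_congr (f := fun η => (1 + spin (η u)) / 2 * (lik ε S η y * spin (η u)))
        (g := fun η => (1 + spin (η u)) / 2 * lik ε S η y)
        (fun η => by cases η u <;> simp [spin]),
      Ev_congr (f := fun η => (1 - spin (η u)) / 2 * (lik ε S η y * spin (η u)))
        (g := fun η => (-1) * ((1 - spin (η u)) / 2 * lik ε S η y))
        (fun η => by cases η u <;> simp [spin]),
      Ev_const_mul, div_self p1.ne', mul_div_assoc, div_self p2.ne']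
    norm_num
  | succ n ih =>
    intro A S u v hA hS hu hv hd
    have hne : u ≠ v := by rintro rfl; simp at hd
    obtain ⟨u', huu, hu'd⟩ := exists_step hG.connected hne
    have hu' : u' ∈ A := hA.step_mem hu hv huu hu'd
    have hvf : Far G u u' v := by
      unfold Far; rw [dist_comm (u := v), dist_comm (u := v)]; omega
    set A₁ := A.filter (fun x => ¬ Far G u u' x) with hA₁
    set A₂ := A.filter (fun x => Far G u u' x) with hA₂
    set S₁ := S.filter (fun j => ¬ Far G u u' j.1) with hS₁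
    set S₂ := S.filter (fun j => Far G u u' j.1) with hS₂
    have hu1 : u ∈ A₁ := Finset.mem_filter.mpr ⟨hu, not_far_self⟩
    have hu2 : u' ∈ A₂ := Finset.mem_filter.mpr ⟨hu', far_self huu⟩
    have hv2 : v ∈ A₂ := Finset.mem_filter.mpr ⟨hv, hvf⟩
    have hl : ∀ η, lik ε S η y = lik ε S₁ η y * lik ε S₂ η y := fun η => by
      unfold lik
      rw [hS₁, hS₂, mul_comm, Finset.prod_filter_mul_prod_filter_not]
    have d1 : ∀ η η' : V → Bool, (∀ w ∈ A₁, η w = η' w) →
        lik ε S₁ η y = lik ε S₁ η' y := fun η η' he => lik_congr (fun j hj => he _ (by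
      rw [hS₁, Finset.mem_filter] at hj
      exact Finset.mem_filter.mpr ⟨hS j hj.1, hj.2⟩)) y
    have d2 : ∀ η η' : V → Bool, (∀ w ∈ A₂, η w = η' w) →
        lik ε S₂ η y = lik ε S₂ η' y := fun η η' he => lik_congr (fun j hj => he _ (by
      rw [hS₂, Finset.mem_filter] at hj
      exact Finset.mem_filter.mpr ⟨hS j hj.1, hj.2⟩)) y
    set C : ℝ → ℝ := fun s => Ev G θ A₁ (fun η => (1 + s * spin (η u)) / 2 * lik ε S₁ η y) with hC
    set X := Ev G θ A₂ (fun η => lik ε S₂ η y) with hX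
    set Y := Ev G θ A₂ (fun η => spin (η u') * lik ε S₂ η y) with hY
    set P := Ev G θ A₂ (fun η => lik ε S₂ η y * spin (η v)) with hP
    set Q := Ev G θ A₂ (fun η => spin (η u') * (lik ε S₂ η y * spin (η v))) with hQ
    have split : ∀ s : ℝ, (∀ η : V → Bool,
          spin (η u) * ((1 + s * spin (η u)) / 2) = s * ((1 + s * spin (η u)) / 2)) →
        Ev G θ A (fun η => (1 + s * spin (η u)) / 2 * lik ε S η y) = C s * (X + θ * s * Y) ∧
        Ev G θ A (fun η => (1 + s * spin (η u)) / 2 * (lik ε S η y * spin (η v)))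
          = C s * (P + θ * s * Q) := by
      intro s hs
      have e1 : ∀ η η' : V → Bool, (∀ w ∈ A₁, η w = η' w) →
          (1 + s * spin (η u)) / 2 * lik ε S₁ η y = (1 + s * spin (η' u)) / 2 * lik ε S₁ η' y :=
        fun η η' he => by rw [he u hu1, d1 η η' he]
      have hsC : Ev G θ A₁ (fun η => spin (η u) * ((1 + s * spin (η u)) / 2 * lik ε S₁ η y))
          = s * C s := by
        rw [hC, ← Ev_const_mul]
        exact Ev_congr fun η => by rw [← mul_assoc, hs η, mul_assoc]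
      constructor
      · rw [Ev_congr (g := fun η => (1 + s * spin (η u)) / 2 * lik ε S₁ η y * lik ε S₂ η y)
          (fun η => by rw [hl]; ring), Ev_split hG hu hu' huu _ _ e1 d2, hsC]
        ring
      · rw [Ev_congr (g := fun η => (1 + s * spin (η u)) / 2 * lik ε S₁ η y *
              (lik ε S₂ η y * spin (η v)))
          (fun η => by rw [hl]; ring),
          Ev_split hG hu hu' huu _ _ e1 (fun η η' he => by rw [d2 η η' he, he v hv2]), hsC]
        ring
    obtain ⟨T1, N1⟩ := split 1 (fun η => by cases η u <;> simp [spin])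
    obtain ⟨T2, N2⟩ := split (-1) (fun η => by cases η u <;> simp [spin])
    simp only [one_mul, mul_one] at T1 N1
    simp only [neg_mul, one_mul, ← sub_eq_add_neg, mul_neg, mul_one] at T2 N2
    rw [T1, N1, T2, N2]
    have hC1 : 0 < C 1 := by
      have := (Ev_cond_pos (G := G) habs hu1 (fun η => lik_pos (S := S₁) hε hε1 hy η)).1
      simpa [hC] using this
    have hC2 : 0 < C (-1) := by
      have := (Ev_cond_pos (G := G) habs hu1 (fun η => lik_pos (S := S₁) hε hε1 hy η)).2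
      simpa [hC, ← sub_eq_add_neg] using this
    rw [mul_div_mul_left _ _ hC1.ne', mul_div_mul_left _ _ hC2.ne']
    set Bp := Ev G θ A₂ (fun η => (1 + spin (η u')) / 2 * lik ε S₂ η y) with hBp
    set Bm := Ev G θ A₂ (fun η => (1 - spin (η u')) / 2 * lik ε S₂ η y) with hBm
    set Rp := Ev G θ A₂ (fun η => (1 + spin (η u')) / 2 * (lik ε S₂ η y * spin (η v))) with hRp
    set Rm := Ev G θ A₂ (fun η => (1 - spin (η u')) / 2 * (lik ε S₂ η y * spin (η v))) with hRm
    obtain ⟨bp, bm⟩ : 0 < Bp ∧ 0 < Bm :=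
      Ev_cond_pos (G := G) habs hu2 (fun η => lik_pos (S := S₂) hε hε1 hy η)
    have eX : X = Bp + Bm := by
      rw [hX, hBp, hBm, ← Ev_add]; exact Ev_congr fun η => by ring
    have eY : Y = Bp - Bm := by
      have : Bp = Y + Bm := by
        rw [hY, hBp, hBm, ← Ev_add]; exact Ev_congr fun η => by ring
      linarith
    have eP : P = Rp + Rm := by
      rw [hP, hRp, hRm, ← Ev_add]; exact Ev_congr fun η => by ring
    have eQ : Q = Rp - Rm := by
      have : Rp = Q + Rm := by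
        rw [hQ, hRp, hRm, ← Ev_add]; exact Ev_congr fun η => by ring
      linarith
    have IH : |Rp / Bp - Rm / Bm| ≤ 2 * θ ^ n :=
      ih A₂ S₂ u' v (hA.filter_far hG huu) (fun j hj => by
        rw [hS₂, Finset.mem_filter] at hj
        exact Finset.mem_filter.mpr ⟨hS j hj.1, hj.2⟩) hu2 hv2 (by omega)
    rw [eX, eY, eP, eQ]
    exact (mixture_step hθ0 hθ bp bm IH).trans_eq (by ring)

open Classical in
/-- Changing one observation at `i` moves the posterior mean at `v` by at most `θ ^ dist`. -/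
lemma mean_lipschitz_one (hG : G.IsTree) (hθ0 : 0 ≤ θ) (hθ : θ < 1) {ε : ℝ} (hε : 0 ≤ ε)
    (hε1 : ε ≤ 1 / 4) {A : Finset V} (hA : Convex' G A) {S : Finset (V × ℕ)}
    (hS : ∀ j ∈ S, j.1 ∈ A) {v : V} (hv : v ∈ A) {i : V × ℕ} (hi : i ∈ S)
    {y y' : V × ℕ → ℝ} (hy : ∀ j, y j ∈ Set.Icc (0 : ℝ) 1) (hy' : ∀ j, y' j ∈ Set.Icc (0 : ℝ) 1)
    (heq : ∀ j ∈ S, j ≠ i → y j = y' j) :
    |Ev G θ A (fun η => lik ε S η y * spin (η v)) / Ev G θ A (fun η => lik ε S η y) -
      Ev G θ A (fun η => lik ε S η y' * spin (η v)) / Ev G θ A (fun η => lik ε S η y')| ≤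
      4 * ε * θ ^ G.dist v i.1 * |y i - y' i| := by
  have habs : |θ| < 1 := by rwa [abs_of_nonneg hθ0]
  set u := i.1 with hu
  have huA : u ∈ A := hS i hi
  have hsame : ∀ η, lik ε (S.erase i) η y' = lik ε (S.erase i) η y := fun η =>
    Finset.prod_congr rfl fun j hj => by
      rw [Finset.mem_erase] at hj; rw [heq j hj.2 hj.1]
  set Kp := Ev G θ A (fun η => (1 + spin (η u)) / 2 * lik ε (S.erase i) η y) with hKp
  set Km := Ev G θ A (fun η => (1 - spin (η u)) / 2 * lik ε (S.erase i) η y) with hKm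
  set Lp := Ev G θ A (fun η => (1 + spin (η u)) / 2 * (lik ε (S.erase i) η y * spin (η v)))
    with hLp
  set Lm := Ev G θ A (fun η => (1 - spin (η u)) / 2 * (lik ε (S.erase i) η y * spin (η v)))
    with hLm
  have expand : ∀ z : V × ℕ → ℝ, (∀ η, lik ε (S.erase i) η z = lik ε (S.erase i) η y) →
      Ev G θ A (fun η => lik ε S η z * spin (η v)) =
          (1 + ε * (2 * z i - 1)) * Lp + (1 - ε * (2 * z i - 1)) * Lm ∧
        Ev G θ A (fun η => lik ε S η z) =
          (1 + ε * (2 * z i - 1)) * Kp + (1 - ε * (2 * z i - 1)) * Km := by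
    intro z hz
    have hl : ∀ η, lik ε S η z =
        (1 + ε * spin (η u) * (2 * z i - 1)) * lik ε (S.erase i) η y := fun η => by
      rw [← hz η]; exact (Finset.mul_prod_erase S _ hi).symm
    constructor <;>
      rw [← Ev_const_mul, ← Ev_const_mul, ← Ev_add] <;> refine Ev_congr fun η => ?_ <;>
        rw [hl] <;> ring
  obtain ⟨n1, t1⟩ := expand y (fun _ => rfl)
  obtain ⟨n2, t2⟩ := expand y' hsame
  rw [n1, t1, n2, t2]
  obtain ⟨kp, km⟩ : 0 < Kp ∧ 0 < Km :=
    Ev_cond_pos (G := G) habs huA (fun η => lik_pos hε (by linarith) hy η)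
  have IH : |Lp / Kp - Lm / Km| ≤ 2 * θ ^ G.dist v u := by
    rw [dist_comm (u := v)]
    exact influence hG hθ0 hθ hε (by linarith) hy _ A (S.erase i) u v hA
      (fun j hj => hS j (Finset.mem_of_mem_erase hj)) huA hv rfl
  set x := 2 * y i - 1 with hx
  set x' := 2 * y' i - 1 with hx'
  have bx : |x| ≤ 1 := abs_le.mpr ⟨by linarith [(hy i).1], by linarith [(hy i).2]⟩
  have bx' : |x'| ≤ 1 := abs_le.mpr ⟨by linarith [(hy' i).1], by linarith [(hy' i).2]⟩
  have hxx : |x - x'| = 2 * |y i - y' i| := by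
    rw [hx, hx', show 2 * y i - 1 - (2 * y' i - 1) = 2 * (y i - y' i) by ring, abs_mul]
    norm_num
  exact (observation_step hε hε1 bx bx' kp km IH).trans_eq (by rw [hxx]; ring)

open Classical in
/-- The posterior mean is Lipschitz with the kernel `θ ^ dist`. -/
lemma mean_lipschitz (hG : G.IsTree) (hθ0 : 0 ≤ θ) (hθ : θ < 1) {ε : ℝ} (hε : 0 ≤ ε)
    (hε1 : ε ≤ 1 / 4) {A : Finset V} (hA : Convex' G A) {S : Finset (V × ℕ)}
    (hS : ∀ j ∈ S, j.1 ∈ A) {v : V} (hv : v ∈ A)
    {y y' : V × ℕ → ℝ} (hy : ∀ j, y j ∈ Set.Icc (0 : ℝ) 1)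
    (hy' : ∀ j, y' j ∈ Set.Icc (0 : ℝ) 1) :
    |Ev G θ A (fun η => lik ε S η y * spin (η v)) / Ev G θ A (fun η => lik ε S η y) -
      Ev G θ A (fun η => lik ε S η y' * spin (η v)) / Ev G θ A (fun η => lik ε S η y')| ≤
      ∑ i ∈ S, 4 * ε * θ ^ G.dist v i.1 * |y i - y' i| := by
  set M := fun z : V × ℕ → ℝ =>
    Ev G θ A (fun η => lik ε S η z * spin (η v)) / Ev G θ A (fun η => lik ε S η z)
  suffices ∀ T ⊆ S, |M y - M (T.piecewise y' y)| ≤
      ∑ i ∈ T, 4 * ε * θ ^ G.dist v i.1 * |y i - y' i| by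
    have h := this S subset_rfl
    have e : ∀ η, lik ε S η (S.piecewise y' y) = lik ε S η y' := fun η =>
      Finset.prod_congr rfl fun j hj => by rw [Finset.piecewise_eq_of_mem _ _ _ hj]
    have eM : M (S.piecewise y' y) = M y' := by
      simp only [M]; simp only [e]
    rwa [eM] at h
  intro T hT
  induction T using Finset.induction_on with
  | empty => simp
  | @insert a T ha ih =>
    have hz : ∀ (T : Finset (V × ℕ)) j, T.piecewise y' y j ∈ Set.Icc (0 : ℝ) 1 := fun T j => by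
      by_cases hj : j ∈ T <;> simp [hj, hy j, hy' j]
    have h1 := mean_lipschitz_one hG hθ0 hθ hε hε1 hA hS hv (hT (Finset.mem_insert_self a T))
      (hz T) (hz (insert a T)) (fun j _ hja => by
        by_cases hj : j ∈ T <;> simp [hj, hja])
    simp only [Finset.piecewise_eq_of_notMem _ _ _ ha,
      Finset.piecewise_eq_of_mem _ _ _ (Finset.mem_insert_self a T)] at h1
    have h2 := ih ((Finset.subset_insert a T).trans hT)
    rw [Finset.sum_insert ha]
    exact (abs_sub_le _ (M (T.piecewise y' y)) _).trans ((add_le_add h2 h1).trans_eq (by ring))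

end Vale.Agent.P161
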