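import Vale.Agent.P161.Compare

/-!
# Splitting one label per vertex, joint measurability and equivariance
-/

namespace Vale.Agent.P161

open MeasureTheory unitInterval Function SimpleGraph

variable {V : Type*}

/-- A map sending one uniform label to a sequence of independent uniform labels. -/
noncomputable def seed : I → ℕ → I :=
  (Measure.exists_measurable_map_eq (Measure.infinitePi fun _ : ℕ => (volume : Measure I))).choose

lemma seed_spec : Measurable seed ∧
    (volume : Measure I).map seed = Measure.infinitePi fun _ : ℕ => (volume : Measure I) :=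
  (Measure.exists_measurable_map_eq
    (Measure.infinitePi fun _ : ℕ => (volume : Measure I))).choose_spec

/-- The order label of each vertex. -/
noncomputable def rho (U : V → I) (v : V) : I := seed (U v) 0

/-- The sampler's inputs. -/
noncomputable def inp (U : V → I) (j : V × ℕ) : I := seed (U j.1) (j.2 + 1)

lemma measurable_rho_inp : Measurable fun U : V → I => (rho U, inp U) := by
  have := seed_spec.1
  refine Measurable.prodMk (measurable_pi_lambda _ fun v => ?_) (measurable_pi_lambda _ fun j => ?_)
  · exact (measurable_pi_apply 0).comp (this.comp (measurable_pi_apply v))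
  · exact (measurable_pi_apply (j.2 + 1)).comp (this.comp (measurable_pi_apply j.1))

/-- Put the order labels back as round zero. -/
def mergeLabels (p : (V → I) × (V × ℕ → I)) : V × ℕ → I := fun j =>
  match j.2 with
  | 0 => p.1 j.1
  | k + 1 => p.2 (j.1, k)

lemma measurable_mergeLabels : Measurable (mergeLabels (V := V)) := by
  refine measurable_pi_lambda _ fun j => ?_
  obtain ⟨v, k⟩ := j
  cases k with
  | zero => exact (measurable_pi_apply v).comp measurable_fst
  | succ k => exact (measurable_pi_apply (v, k)).comp measurable_snd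

lemma map_mergeLabels :
    ((iidLabels V).prod (iidLabels (V × ℕ))).map mergeLabels = iidLabels (V × ℕ) := by
  classical
  have : IsProbabilityMeasure (((iidLabels V).prod (iidLabels (V × ℕ))).map mergeLabels) :=
    Measure.isProbabilityMeasure_map measurable_mergeLabels.aemeasurable
  refine Measure.eq_infinitePi _ fun s t ht => ?_
  rw [Measure.map_apply measurable_mergeLabels (.pi s.countable_toSet fun _ _ => ht _)]
  set sa := s.filter (fun j => j.2 = 0) with hsa
  set sb := s.filter (fun j => ¬ j.2 = 0) with hsb
  set ta : Finset V := sa.image Prod.fst with hta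
  set tb : Finset (V × ℕ) := sb.image (fun j => (j.1, j.2 - 1)) with htb
  have hpre : (mergeLabels (V := V)) ⁻¹' (s : Set (V × ℕ)).pi t =
      (ta : Set V).pi (fun v => t (v, 0)) ×ˢ
        (tb : Set (V × ℕ)).pi (fun j => t (j.1, j.2 + 1)) := by
    ext ⟨r, w⟩
    simp only [Set.mem_preimage, Set.mem_pi, Finset.mem_coe, Set.mem_prod, hta, htb, hsa, hsb,
      Finset.mem_image, Finset.mem_filter]
    constructor
    · intro h
      refine ⟨fun v hv => ?_, fun j hj => ?_⟩
      · obtain ⟨⟨a, k⟩, ⟨hin, hk⟩, rfl⟩ := hv
        obtain rfl : k = 0 := hk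
        exact h (a, 0) hin
      · obtain ⟨⟨a, k⟩, ⟨hin, hk⟩, rfl⟩ := hj
        obtain ⟨k, rfl⟩ : ∃ l, k = l + 1 := ⟨k - 1, by simp only at hk; omega⟩
        exact h (a, k + 1) hin
    · rintro ⟨h1, h2⟩ ⟨a, k⟩ hin
      cases k with
      | zero => exact h1 a ⟨(a, 0), ⟨hin, rfl⟩, rfl⟩
      | succ k => exact h2 (a, k) ⟨(a, k + 1), ⟨hin, Nat.succ_ne_zero k⟩, rfl⟩
  rw [hpre, Measure.prod_prod, iidLabels, iidLabels, Measure.infinitePi_pi _ (fun v _ => ht _),
    Measure.infinitePi_pi _ (fun j _ => ht _), hta, htb, Finset.prod_image, Finset.prod_image,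
    ← Finset.prod_filter_mul_prod_filter_not s (fun j => j.2 = 0)]
  · refine congrArg₂ (· * ·) (Finset.prod_congr rfl fun j hj => ?_)
      (Finset.prod_congr rfl fun j hj => ?_)
    · obtain ⟨a, k⟩ := j
      obtain rfl : k = 0 := (Finset.mem_filter.mp hj).2
      rfl
    · obtain ⟨a, k⟩ := j
      have hk : ¬ k = 0 := (Finset.mem_filter.mp hj).2
      simp only
      rw [show k - 1 + 1 = k by omega]
  · intro i hi j hj h
    obtain ⟨a, k⟩ := i
    obtain ⟨b, l⟩ := j
    have hk : ¬ k = 0 := (Finset.mem_filter.mp (Finset.mem_coe.mp hi)).2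
    have hl : ¬ l = 0 := (Finset.mem_filter.mp (Finset.mem_coe.mp hj)).2
    simp only [Prod.mk.injEq] at h ⊢
    exact ⟨h.1, by omega⟩
  · intro i hi j hj h
    exact Prod.ext h ((Finset.mem_filter.mp (Finset.mem_coe.mp hi)).2.trans
      (Finset.mem_filter.mp (Finset.mem_coe.mp hj)).2.symm)

/-- The labels and inputs are independent and uniform. -/
lemma map_rho_inp :
    (iidLabels V).map (fun U => (rho U, inp U)) = (iidLabels V).prod (iidLabels (V × ℕ)) := by
  have hs := seed_spec
  set full : (V → I) → V × ℕ → I := fun U j => seed (U j.1) j.2 with hfull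
  have hfm : Measurable full := measurable_pi_lambda _ fun j =>
    (measurable_pi_apply j.2).comp (hs.1.comp (measurable_pi_apply j.1))
  have h1 : (iidLabels V).map full = iidLabels (V × ℕ) := by
    have e := Measure.infinitePi_map_pi (fun _ : V => (volume : Measure I))
      (f := fun _ => seed) (fun _ => hs.1)
    have e2 := Measure.infinitePi_map_curry_symm (fun (_ : V) (_ : ℕ) => (volume : Measure I))
    have : full = ⇑(MeasurableEquiv.curry V ℕ I).symm ∘ fun (x : V → I) v => seed (x v) := by
      funext U j; rfl
    have hm2 : Measurable fun (x : V → I) v => seed (x v) :=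
      measurable_pi_lambda _ fun v => hs.1.comp (measurable_pi_apply v)
    rw [this, ← Measure.map_map (MeasurableEquiv.measurable _) hm2]
    unfold iidLabels
    rw [e]
    simp only [hs.2]
    exact e2
  set split : (V × ℕ → I) → (V → I) × (V × ℕ → I) :=
    fun w => (fun v => w (v, 0), fun j => w (j.1, j.2 + 1)) with hsplit
  have hsm : Measurable split :=
    (measurable_pi_lambda _ fun v => measurable_pi_apply (v, 0)).prodMk
      (measurable_pi_lambda _ fun j => measurable_pi_apply (j.1, j.2 + 1))
  have h2 : split ∘ mergeLabels = id := by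
    funext q; rfl
  have h3 : (fun U : V → I => (rho U, inp U)) = split ∘ full := rfl
  rw [h3, ← Measure.map_map hsm hfm, h1]
  conv_lhs => rw [← map_mergeLabels]
  rw [Measure.map_map hsm measurable_mergeLabels, h2, Measure.map_id]

variable {G : SimpleGraph V} {θ ε : ℝ}

lemma measurableSet_before (i j : V × ℕ) :
    MeasurableSet {q : (V → I) × (V × ℕ → I) | Before q.1 i j} := by
  have hlt : MeasurableSet {q : (V → I) × (V × ℕ → I) | q.1 i.1 < q.1 j.1} :=
    measurableSet_lt ((measurable_pi_apply i.1).comp measurable_fst)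
      ((measurable_pi_apply j.1).comp measurable_fst)
  exact ((MeasurableSet.const _).union ((MeasurableSet.const _).inter hlt))

lemma measurable_pmean_past (A : Finset V) (j : V × ℕ)
    {y : (V → I) × (V × ℕ → I) → V × ℕ → I} (hy : Measurable y) :
    Measurable fun q => pmean G θ ε A (past A q.1 j) j.1 (y q) := by
  classical
  have hl : ∀ η : V → Bool, Measurable fun q => lik ε (past A q.1 j) η (rv (y q)) := by
    intro η
    have e : (fun q => lik ε (past A q.1 j) η (rv (y q))) = fun q =>
        ∏ i ∈ A ×ˢ Finset.range (j.2 + 1),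
          if Before q.1 i j then 1 + ε * spin (η i.1) * (2 * (y q i : ℝ) - 1) else 1 := by
      funext q
      simp only [lik, past, rv]
      rw [Finset.prod_filter]
    rw [e]
    refine Finset.measurable_prod _ fun i _ => Measurable.ite (measurableSet_before i j) ?_
      measurable_const
    have : Measurable fun q => (y q i : ℝ) :=
      measurable_subtype_coe.comp ((measurable_pi_apply i).comp hy)
    fun_prop
  unfold pmean numer dens Ev
  exact (Finset.measurable_sum _ fun s _ => ((hl _).mul_const _).const_mul _).div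
    (Finset.measurable_sum _ fun s _ => (hl _).const_mul _)

lemma measurable_sampIter (A : Finset V) :
    ∀ n, Measurable fun q : (V → I) × (V × ℕ → I) => sampIter G θ ε A q.1 q.2 n
  | 0 => measurable_snd
  | n + 1 => measurable_pi_lambda _ fun j => continuous_invCdf.measurable.comp
      (((measurable_pmean_past A j (measurable_sampIter A n)).const_mul ε).prodMk
        ((measurable_pi_apply j).comp measurable_snd))

lemma measurable_samp (A : Finset V) (j : V × ℕ) :
    Measurable fun q : (V → I) × (V × ℕ → I) => samp G θ ε A q.1 q.2 j := by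
  classical
  have e : (fun q : (V → I) × (V × ℕ → I) => samp G θ ε A q.1 q.2 j) =
      fun q => sampIter G θ ε A q.1 q.2 ((A ×ˢ Finset.range (j.2 + 1)).card + 1) j := by
    funext q
    exact (sampIter_stable A q.1 q.2 j _ (Nat.lt_succ_of_le
      (Finset.card_le_card (Finset.filter_subset _ _)))).symm
  rw [e]
  exact (measurable_pi_apply j).comp
    (measurable_sampIter (G := G) (θ := θ) (ε := ε) A ((A ×ˢ Finset.range (j.2 + 1)).card + 1))

lemma measurable_samp_all (A : Finset V) :
    Measurable fun q : (V → I) × (V × ℕ → I) => samp G θ ε A q.1 q.2 :=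
  measurable_pi_lambda _ (measurable_samp A)

section Equivariance

variable (g : G ≃g G)

lemma edgesIn_image [DecidableEq V] (A : Finset V) :
    edgesIn G (A.image g) = (edgesIn G A).image (Sym2.map g) := by
  ext e
  induction e using Sym2.ind with
  | _ a b =>
    simp only [mem_edgesIn, Finset.mem_image]
    constructor
    · rintro ⟨hab, ⟨x, hx, rfl⟩, y, hy, rfl⟩
      exact ⟨s(x, y), mem_edgesIn.mpr ⟨g.map_adj_iff.mp hab, hx, hy⟩, rfl⟩
    · rintro ⟨e, he, heq⟩
      induction e using Sym2.ind with
      | _ x y =>
        obtain ⟨hxy, hx, hy⟩ := mem_edgesIn.mp he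
        rcases Sym2.eq_iff.mp heq with ⟨rfl, rfl⟩ | ⟨rfl, rfl⟩
        · exact ⟨g.map_adj_iff.mpr hxy, ⟨x, hx, rfl⟩, y, hy, rfl⟩
        · exact ⟨g.map_adj_iff.mpr hxy.symm, ⟨y, hy, rfl⟩, x, hx, rfl⟩

lemma Ev_image [DecidableEq V] (A : Finset V) (f : (V → Bool) → ℝ) :
    Ev G θ (A.image g) f = Ev G θ A (fun η => f (fun v => η (g.symm v))) := by
  unfold Ev
  rw [Finset.powerset_image, Finset.sum_image]
  · refine Finset.sum_congr rfl fun s _ => ?_
    have e : cfg (s.image g) = fun v => cfg s (g.symm v) := by
      funext v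
      simp only [cfg, Finset.mem_image]
      congr 1
      exact propext ⟨fun ⟨x, hx, hxv⟩ => by rw [← hxv]; simpa using hx,
        fun h => ⟨g.symm v, h, by simp⟩⟩
    rw [e]
    congr 1
    unfold prior
    rw [edgesIn_image g A, Finset.prod_image (fun a _ b _ h => Sym2.map.injective g.injective h)]
    congr 1
    refine Finset.prod_congr rfl fun e _ => ?_
    induction e using Sym2.ind with
    | _ x y => simp [edgeWeight_mk]
  · exact fun a _ b _ h => Finset.image_injective g.injective h

/-- The sampler commutes with automorphisms. -/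
lemma samp_image [DecidableEq V] (A : Finset V) (ρ : V → I) (u : V × ℕ → I) (j : V × ℕ) :
    samp G θ ε (A.image g) (fun v => ρ (g.symm v)) (fun i => u (g.symm i.1, i.2)) j =
      samp G θ ε A ρ u (g.symm j.1, j.2) := by
  classical
  suffices samp G θ ε (A.image g) (fun v => ρ (g.symm v)) (fun i => u (g.symm i.1, i.2)) =
      fun i => samp G θ ε A ρ u (g.symm i.1, i.2) from congrFun this j
  refine samp_unique fun i => ?_
  rw [samp_eq A ρ u (g.symm i.1, i.2)]
  have hp : past (A.image g) (fun v => ρ (g.symm v)) i =
      (past A ρ (g.symm i.1, i.2)).image (fun a => (g a.1, a.2)) := by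
    ext ⟨w, l⟩
    simp only [mem_past, Finset.mem_image, Before, Prod.exists, Prod.mk.injEq]
    constructor
    · rintro ⟨⟨x, hx, rfl⟩, h⟩
      exact ⟨x, l, ⟨hx, by simpa using h⟩, rfl, rfl⟩
    · rintro ⟨x, k, ⟨hx, h⟩, rfl, rfl⟩
      exact ⟨⟨x, hx, rfl⟩, by simpa using h⟩
  have hl : ∀ η : V → Bool,
      lik ε (past (A.image g) (fun v => ρ (g.symm v)) i) (fun v => η (g.symm v))
          (rv fun i => samp G θ ε A ρ u (g.symm i.1, i.2)) =
        lik ε (past A ρ (g.symm i.1, i.2)) η (rv (samp G θ ε A ρ u)) := fun η => by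
    rw [hp]
    unfold lik
    rw [Finset.prod_image]
    · simp [rv]
    · intro a _ b _ h
      simp only [Prod.mk.injEq] at h
      exact Prod.ext (g.injective h.1) h.2
  congr 2
  unfold pmean numer dens
  rw [Ev_image, Ev_image]
  simp only [hl]

end Equivariance

end Vale.Agent.P161
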