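import Vale.Agent.P161.Rounds
import Vale.Agent.P161.Random

/-!
# The free Ising measure is a factor of IID below the threshold
-/

namespace Vale.Agent.P161

open MeasureTheory unitInterval Function SimpleGraph Filter Topology Params

variable {V : Type*} {G : SimpleGraph V} [G.LocallyFinite]

omit [G.LocallyFinite] in
lemma countable_of_isTree (hG : G.IsTree) [G.LocallyFinite] : Countable V := by
  obtain ⟨o⟩ := hG.connected.nonempty
  have h : (⋃ n : ℕ, (bll G o n : Set V)).Countable :=
    Set.countable_iUnion fun n => (bll G o n).countable_toSet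
  refine Set.countable_univ_iff.mp (h.mono fun v _ => ?_)
  exact Set.mem_iUnion.mpr ⟨G.dist o v, (mem_bll hG.connected).mpr le_rfl⟩

section Integrals

variable [Countable V]

/-- The joint law of order labels and inputs. -/
noncomputable abbrev joint (V : Type*) : Measure ((V → I) × (V × ℕ → I)) :=
  (iidLabels V).prod (iidLabels (V × ℕ))

lemma ae_injOn (A : Finset V) : ∀ᵐ ρ ∂iidLabels V, Set.InjOn ρ A := by
  classical
  have hne : ∀ v w : V, v ≠ w → ∀ᵐ ρ ∂iidLabels V, ρ v ≠ ρ w := by
    intro v w hvw
    rw [ae_iff]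
    have hset : MeasurableSet {ρ : V → I | ¬ ρ v ≠ ρ w} := by
      simp only [not_not]
      exact measurableSet_eq_fun (measurable_pi_apply v) (measurable_pi_apply w)
    rw [← map_update (ι := V) v, Measure.map_apply (measurable_update₂ v) hset,
      Measure.prod_apply (measurable_update₂ v hset)]
    refine (lintegral_congr fun u => ?_).trans lintegral_zero
    have : Prod.mk u ⁻¹' ((fun p : (V → I) × I => update p.1 v p.2) ⁻¹'
        {ρ : V → I | ¬ ρ v ≠ ρ w}) = Set.Icc (u w) (u w) := by
      ext t
      simp [Ne.symm hvw]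
    rw [this, unitInterval.volume_Icc, sub_self, ENNReal.ofReal_zero]
  have h : ∀ᵐ ρ ∂iidLabels V, ∀ v ∈ A, ∀ w ∈ A, v ≠ w → ρ v ≠ ρ w := by
    refine (Finset.eventually_all A).mpr fun v _ => (Finset.eventually_all A).mpr fun w _ => ?_
    by_cases hvw : v = w
    · exact Eventually.of_forall fun _ h => absurd hvw h
    · filter_upwards [hne v w hvw] with ρ hρ _ using hρ
  filter_upwards [h] with ρ hρ v hv w hw heq
  by_contra hne'
  exact hρ v hv w hw hne' heq

variable [DecidableEq V] (p : Params G)

omit [G.LocallyFinite] [DecidableEq V] in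
lemma measurable_emp_smp (A : Finset V) (K : ℕ) (v : V) :
    Measurable fun q : (V → I) × (V × ℕ → I) => emp p.ε K v (p.smp A q.1 q.2) :=
  (continuous_emp p.ε K v).measurable.comp (measurable_samp_all A)

omit [G.LocallyFinite] in
lemma integrable_bounded {X : Type*} [MeasurableSpace X] {μ : Measure X} [IsFiniteMeasure μ]
    {f : X → ℝ} (hf : Measurable f) (C : ℝ) (hC : ∀ x, |f x| ≤ C) : Integrable f μ :=
  (integrable_const C).mono' hf.aestronglyMeasurable (Eventually.of_forall hC)

omit [G.LocallyFinite] in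
/-- A bound for almost every fixed order bounds the joint integral. -/
lemma integral_joint_le {f : (V → I) × (V × ℕ → I) → ℝ} (hf : Measurable f) {C : ℝ}
    (hC : ∀ x, |f x| ≤ C) {B : (V → I) → ℝ} (hB : Integrable B (iidLabels V))
    (h : ∀ᵐ ρ ∂iidLabels V, ∫ u, f (ρ, u) ∂iidLabels (V × ℕ) ≤ B ρ) :
    ∫ q, f q ∂joint V ≤ ∫ ρ, B ρ ∂iidLabels V := by
  have hi := integrable_bounded (μ := joint V) hf C hC
  rw [integral_prod f hi]
  exact integral_mono_ae hi.integral_prod_left hB h

/-- The averaged mean square of the posterior mean. -/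
noncomputable def qAvg (A : Finset V) (i : V × ℕ) : ℝ := ∫ ρ, p.qf A ρ i ∂iidLabels V

omit [G.LocallyFinite] in
lemma qf_mem (A : Finset V) (ρ : V → I) (i : V × ℕ) : 0 ≤ p.qf A ρ i ∧ p.qf A ρ i ≤ 1 := by
  refine ⟨integral_nonneg fun u => sq_nonneg _, ?_⟩
  have := integral_le_integral (f := fun u => p.mn A ρ i (p.smp A ρ u) ^ 2)
    (((p.continuous_mn A ρ i).comp (p.continuous_smp A ρ)).pow 2)
    (continuous_const (y := (1 : ℝ))) fun u => by
      rw [← sq_abs]; exact pow_le_one₀ (abs_nonneg _) (p.abs_mn_le A ρ i _)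
  simpa [Params.qf] using this

omit [G.LocallyFinite] in
lemma integrable_qf (A : Finset V) (i : V × ℕ) :
    Integrable (fun ρ => p.qf A ρ i) (iidLabels V) := by
  have hm : Measurable fun q : (V → I) × (V × ℕ → I) => p.mn A q.1 i (p.smp A q.1 q.2) ^ 2 :=
    (measurable_pmean_past A i (measurable_samp_all A)).pow_const 2
  have hs : StronglyMeasurable fun ρ => p.qf A ρ i :=
    StronglyMeasurable.integral_prod_right' (ν := iidLabels (V × ℕ)) hm.stronglyMeasurable
  refine integrable_bounded hs.measurable 1 fun ρ => ?_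
  rw [abs_of_nonneg (qf_mem p A ρ i).1]
  exact (qf_mem p A ρ i).2

omit [G.LocallyFinite] in
lemma qAvg_le_one (A : Finset V) (i : V × ℕ) : qAvg p A i ≤ 1 := by
  have := integral_mono (integrable_qf p A i) (integrable_const (1 : ℝ))
    fun ρ => (qf_mem p A ρ i).2
  simpa [qAvg] using this

omit [G.LocallyFinite] in
lemma qAvg_mono {A A' : Finset V} (hA : Convex' G A) (hA' : Convex' G A') (hsub : A ⊆ A')
    {i : V × ℕ} (hi : i.1 ∈ A) : qAvg p A i ≤ qAvg p A' i := by
  refine integral_mono_ae (integrable_qf p A i) (integrable_qf p A' i) ?_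
  filter_upwards [ae_injOn A'] with ρ hρ
  have := p.integral_mn_sub_sq hA hA' ⟨_, hi⟩ hsub hρ hi
  have h0 : 0 ≤ ∫ u, (p.mn A' ρ i (p.smp A' ρ u) - p.mn A ρ i (p.smp A' ρ u)) ^ 2
      ∂iidLabels (V × ℕ) := integral_nonneg fun u => sq_nonneg _
  linarith

/-- Every large enough subtree around `v` gives nearly the same value at `(v, k)`. -/
lemma exists_radius_coord (v : V) (k : ℕ) {η : ℝ} (hη : 0 < η) :
    ∃ R, ∀ r, R ≤ r → ∀ A, Convex' G A → bll G v r ⊆ A →
      ∫ q, |(p.smp (bll G v r) q.1 q.2 (v, k) : ℝ) - p.smp A q.1 q.2 (v, k)| ∂joint V ≤ η := by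
  classical
  have hc := p.hG.connected
  set c : ℝ := 16 * 16 ^ k * ((k : ℝ) + 1) with hcdef
  obtain ⟨n, hn⟩ : ∃ n, c * p.tail n / (η / 4) ≤ η / 4 := by
    have h0 : Tendsto (fun n => c * p.tail n / (η / 4)) atTop (𝓝 0) := by
      simpa using (p.tail_tendsto.const_mul c).div_const (η / 4)
    exact (h0.eventually_le_const (by positivity)).exists
  set W := Params.win (G := G) (v, k) n with hW
  set sw := ∑ i ∈ W, wgt G p.lam (v, k) i with hsw
  have hsw0 : 0 ≤ sw := Finset.sum_nonneg fun i _ => p.wgt_nonneg _ _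
  set δ := η / (4 * (sw + 1)) with hδdef
  have hδ : 0 < δ := by positivity
  have hiW : ∀ i ∈ W, i.1 ∈ bll G v n := fun i hi => (Finset.mem_product.mp hi).1
  have hstab : ∀ i ∈ W, ∃ R, n ≤ R ∧ ∀ r, R ≤ r → ∀ A, Convex' G A → bll G v r ⊆ A →
      qAvg p A i - qAvg p (bll G v r) i ≤ δ ^ 2 := by
    intro i hi
    set f : ℕ → ℝ := fun R => qAvg p (bll G v (n + R)) i with hf
    have hbdd : BddAbove (Set.range f) := ⟨1, by
      rintro _ ⟨R, rfl⟩; exact qAvg_le_one p _ i⟩
    obtain ⟨R0, hR0⟩ : ∃ R0, (⨆ R, f R) - δ ^ 2 < f R0 :=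
      exists_lt_of_lt_ciSup (by nlinarith [hδ])
    refine ⟨n + R0, by omega, fun r hr A hA hball => ?_⟩
    obtain ⟨m, hm⟩ := exists_bll_superset hc v A
    have hm' : bll G v r ⊆ bll G v (n + (m + r)) := bll_mono hc v (by omega)
    have h1 : qAvg p A i ≤ f (m + r) :=
      qAvg_mono p hA (convex_bll p.hG v _) (hm.trans (bll_mono hc v (by omega)))
        (hball (bll_mono hc v (by omega) (hiW i hi)))
    have h2 : f (m + r) ≤ ⨆ R, f R := le_ciSup hbdd _
    have h3 : f R0 ≤ qAvg p (bll G v r) i :=
      qAvg_mono p (convex_bll p.hG v _) (convex_bll p.hG v _) (bll_mono hc v hr)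
        (bll_mono hc v (by omega) (hiW i hi))
    linarith
  choose R hRn hR using hstab
  refine ⟨n + ∑ i ∈ W.attach, R i.1 i.2, fun r hr A hA hball => ?_⟩
  set B := bll G v r with hB
  have hBc : Convex' G B := convex_bll p.hG v r
  have hnB : bll G v n ⊆ B := bll_mono hc v (by omega)
  have hqd : ∀ i, Integrable (fun ρ => (p.qf A ρ i - p.qf B ρ i) / (2 * δ)) (iidLabels V) :=
    fun i => ((integrable_qf p A i).sub (integrable_qf p B i)).div_const _
  have hterm0 : ∀ i, Integrable (fun ρ => wgt G p.lam (v, k) i *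
      (δ / 2 + (p.qf A ρ i - p.qf B ρ i) / (2 * δ))) (iidLabels V) :=
    fun i => ((integrable_const _).fun_add (hqd i)).const_mul _
  have hint : Integrable (fun ρ => η / 4 + c * p.tail n / (η / 4) +
      ∑ i ∈ W, wgt G p.lam (v, k) i * (δ / 2 + (p.qf A ρ i - p.qf B ρ i) / (2 * δ))) (iidLabels V) :=
    (integrable_const _).fun_add (integrable_finsetSum _ fun i _ => hterm0 i)
  refine (integral_joint_le (C := 1) ?_ (fun q => ?_) hint ?_).trans ?_
  · exact ((measurable_subtype_coe.comp (measurable_samp B _)).sub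
      (measurable_subtype_coe.comp (measurable_samp A _))).abs
  · rw [abs_abs]
    exact abs_le.mpr ⟨by linarith [(p.smp B q.1 q.2 (v, k)).2.1, (p.smp A q.1 q.2 (v, k)).2.2],
      by linarith [(p.smp B q.1 q.2 (v, k)).2.2, (p.smp A q.1 q.2 (v, k)).2.1]⟩
  · filter_upwards [ae_injOn A] with ρ hρ
    exact p.integral_smp_sub_le hBc hA hball hρ (j := (v, k)) hnB (by positivity) hδ
  · rw [integral_add (integrable_const _) (integrable_finsetSum _ fun i _ => hterm0 i),
      integral_finsetSum _ fun i _ => hterm0 i]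
    have hterm : ∀ i ∈ W, ∫ ρ, wgt G p.lam (v, k) i * (δ / 2 + (p.qf A ρ i - p.qf B ρ i) / (2 * δ))
        ∂iidLabels V ≤ wgt G p.lam (v, k) i * δ := by
      intro i hi
      rw [integral_const_mul, integral_add (integrable_const _) (hqd i), integral_div (2 * δ),
        integral_sub (integrable_qf p A i) (integrable_qf p B i)]
      refine mul_le_mul_of_nonneg_left ?_ (p.wgt_nonneg _ _)
      have hr' : R i hi ≤ r := by
        have := Finset.single_le_sum (fun (x : {x // x ∈ W}) _ => Nat.zero_le (R x.1 x.2))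
          (Finset.mem_attach W ⟨i, hi⟩)
        simp only at this
        omega
      have h := hR i hi r hr' A hA hball
      simp only [integral_const, probReal_univ, one_smul]
      simp only [qAvg] at h
      have : (∫ ρ, p.qf A ρ i ∂iidLabels V - ∫ ρ, p.qf B ρ i ∂iidLabels V) / (2 * δ) ≤ δ / 2 := by
        rw [div_le_iff₀ (by positivity)]
        exact h.trans_eq (by ring)
      linarith
    have hsum := Finset.sum_le_sum hterm
    rw [← Finset.sum_mul] at hsum
    have : sw * δ ≤ η / 4 := by
      rw [hδdef, ← mul_div_assoc, div_le_iff₀ (by positivity)]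
      nlinarith
    simp only [integral_const, probReal_univ, one_smul]
    linarith

/-- Every large enough subtree around `v` gives nearly the same reading at `v`. -/
lemma exists_radius (v : V) (K : ℕ) {η : ℝ} (hη : 0 < η) :
    ∃ R, ∀ r, R ≤ r → ∀ A, Convex' G A → bll G v r ⊆ A →
      ∫ q, |emp p.ε K v (p.smp (bll G v r) q.1 q.2) - emp p.ε K v (p.smp A q.1 q.2)| ∂joint V
        ≤ η := by
  classical
  rcases Nat.eq_zero_or_pos K with rfl | hK
  · exact ⟨0, fun r _ A _ _ => by simp [emp, hη.le]⟩
  set η' := p.ε * η / 6 with hη'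
  have hpos : 0 < η' := by have := p.ε_pos; positivity
  choose R hR using fun k => exists_radius_coord p v k hpos
  refine ⟨(Finset.range K).sup R, fun r hr A hA hball => ?_⟩
  have hm : ∀ (B : Finset V) k, Measurable fun q : (V → I) × (V × ℕ → I) =>
      (p.smp B q.1 q.2 (v, k) : ℝ) := fun B k =>
    measurable_subtype_coe.comp (measurable_samp B _)
  have hik : ∀ k, Integrable (fun q : (V → I) × (V × ℕ → I) =>
      |(p.smp (bll G v r) q.1 q.2 (v, k) : ℝ) - p.smp A q.1 q.2 (v, k)|) (joint V) := fun k =>
    integrable_bounded ((hm _ k).sub (hm _ k)).abs 1 fun q => by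
      rw [abs_abs]
      exact abs_le.mpr
        ⟨by linarith [(p.smp (bll G v r) q.1 q.2 (v, k)).2.1, (p.smp A q.1 q.2 (v, k)).2.2],
          by linarith [(p.smp (bll G v r) q.1 q.2 (v, k)).2.2, (p.smp A q.1 q.2 (v, k)).2.1]⟩
  refine (integral_mono_of_nonneg (Eventually.of_forall fun q => abs_nonneg _)
    ((integrable_finsetSum (Finset.range K) fun k _ => hik k).const_mul (6 / (p.ε * K)))
    (Eventually.of_forall fun q => abs_emp_sub_le p.ε_pos K v _ _)).trans ?_
  rw [integral_const_mul, integral_finsetSum _ fun k _ => hik k]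
  refine (mul_le_mul_of_nonneg_left (Finset.sum_le_card_nsmul _ _ η' fun k hk =>
    hR k r ((Finset.le_sup hk).trans hr) A hA hball)
    (by have := p.ε_pos; positivity)).trans_eq ?_
  have := p.ε_pos.ne'
  have : (K : ℝ) ≠ 0 := Nat.cast_ne_zero.mpr hK.ne'
  rw [Finset.card_range, nsmul_eq_mul, hη']
  field_simp

omit [G.LocallyFinite] in
lemma integral_joint_dist_triangle (K : ℕ) (v : V) (A B C : Finset V) :
    ∫ q, |emp p.ε K v (p.smp A q.1 q.2) - emp p.ε K v (p.smp C q.1 q.2)| ∂joint V ≤
      (∫ q, |emp p.ε K v (p.smp B q.1 q.2) - emp p.ε K v (p.smp A q.1 q.2)| ∂joint V) +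
      ∫ q, |emp p.ε K v (p.smp B q.1 q.2) - emp p.ε K v (p.smp C q.1 q.2)| ∂joint V := by
  have hi : ∀ D D' : Finset V, Integrable (fun q : (V → I) × (V × ℕ → I) =>
      |emp p.ε K v (p.smp D q.1 q.2) - emp p.ε K v (p.smp D' q.1 q.2)|) (joint V) := fun D D' =>
    integrable_bounded ((measurable_emp_smp p D K v).sub (measurable_emp_smp p D' K v)).abs 2
      fun q => by
        rw [abs_abs]
        have := abs_le.mp (abs_emp_le p.ε K v (p.smp D q.1 q.2))
        have := abs_le.mp (abs_emp_le p.ε K v (p.smp D' q.1 q.2))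
        exact abs_le.mpr ⟨by linarith, by linarith⟩
  rw [← integral_add (hi B A) (hi B C)]
  refine integral_mono (hi A C) ((hi B A).add (hi B C)) fun q => ?_
  simp only
  rw [abs_sub_comm (emp p.ε K v (p.smp B q.1 q.2)) (emp p.ε K v (p.smp A q.1 q.2))]
  exact abs_sub_le _ _ _

/-- A single radius serving all vertices of the ball of radius `n` around `o`. -/
lemma exists_common_radius (o : V) (n : ℕ) :
    ∃ r, ∀ v ∈ bll G o n, ∀ A, Convex' G A → bll G v r ⊆ A →
      ∫ q, |emp p.ε (16 ^ n) v (p.smp (bll G v r) q.1 q.2) -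
          emp p.ε (16 ^ n) v (p.smp A q.1 q.2)| ∂joint V ≤ 2 * (1 / 2) ^ n := by
  choose R hR using fun v => exists_radius p v (16 ^ n) (η := (1 / 2) ^ n) (by positivity)
  refine ⟨(bll G o n).sup R, fun v hv A hA hball => ?_⟩
  have hle : R v ≤ (bll G o n).sup R := Finset.le_sup hv
  have hsub := bll_mono p.hG.connected v hle
  refine (integral_joint_dist_triangle p (16 ^ n) v _ (bll G v (R v)) A).trans ?_
  linarith [hR v (R v) le_rfl _ (convex_bll p.hG v ((bll G o n).sup R)) hsub,
    hR v (R v) le_rfl A hA (hsub.trans hball)]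

/-- The chosen radii. -/
noncomputable def rad (o : V) (n : ℕ) : ℕ := (exists_common_radius p o n).choose

/-- The reading at stage `n`. -/
noncomputable def read (o : V) (n : ℕ) (v : V) (q : (V → I) × (V × ℕ → I)) : ℝ :=
  emp p.ε (16 ^ n) v (p.smp (bll G v (rad p o n)) q.1 q.2)

lemma measurable_read (o : V) (n : ℕ) (v : V) : Measurable (read p o n v) :=
  measurable_emp_smp p _ _ v

lemma abs_read_le (o : V) (n : ℕ) (v : V) (q : (V → I) × (V × ℕ → I)) : |read p o n v q| ≤ 1 :=
  abs_emp_le _ _ _ _

lemma round_bound {n : ℕ} {c : ℝ} (hc : 0 ≤ c) :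
    c / (p.ε ^ 2 * ((16 ^ n : ℕ) : ℝ) * (1 / 2) ^ n) ≤ c / p.ε ^ 2 * (1 / 2) ^ n := by
  have := p.ε_pos
  have e : p.ε ^ 2 * ((16 ^ n : ℕ) : ℝ) * (1 / 2) ^ n = p.ε ^ 2 * 8 ^ n := by
    push_cast
    rw [mul_assoc, ← mul_pow]; norm_num
  rw [e, show c / (p.ε ^ 2 * 8 ^ n) = c / p.ε ^ 2 * (1 / 8) ^ n by
    rw [div_pow, one_pow]; field_simp]
  gcongr
  norm_num

lemma read_step (o v : V) {n : ℕ} (hn : G.dist o v ≤ n) :
    ∫ q, |read p o (n + 1) v q - read p o n v q| ∂joint V ≤
      (6 + 36 / p.ε ^ 2) * (1 / 2) ^ n := by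
  have hc := p.hG.connected
  set A := bll G v (max (rad p o n) (rad p o (n + 1))) with hA
  have hAc : Convex' G A := convex_bll p.hG v _
  have hvA : v ∈ A := self_mem_bll hc v _
  set x : ℕ → (V → I) × (V × ℕ → I) → ℝ := fun m q => emp p.ε (16 ^ m) v (p.smp A q.1 q.2)
  have h1 := (exists_common_radius p o n).choose_spec v ((mem_bll hc).mpr hn) A hAc
    (bll_mono hc v (le_max_left _ _))
  have h2 := (exists_common_radius p o (n + 1)).choose_spec v
    ((mem_bll hc).mpr (hn.trans n.le_succ)) A hAc (bll_mono hc v (le_max_right _ _))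
  have hb2 : ∀ (a b : (V → I) × (V × ℕ → I) → ℝ), Measurable a → Measurable b →
      (∀ q, |a q| ≤ 1) → (∀ q, |b q| ≤ 1) →
      Integrable (fun q => |a q - b q|) (joint V) := fun a b ha hb ha1 hb1 =>
    integrable_bounded (ha.sub hb).abs 2 fun q => by
      simp only [Pi.sub_apply, abs_abs]
      have := abs_le.mp (ha1 q)
      have := abs_le.mp (hb1 q)
      exact abs_le.mpr ⟨by linarith, by linarith⟩
  have hxm : ∀ m, Measurable (x m) := fun m => measurable_emp_smp p A _ v
  have hxb : ∀ m q, |x m q| ≤ 1 := fun m q => abs_emp_le _ _ _ _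
  have i1 := hb2 _ _ (measurable_read p o (n + 1) v) (hxm (n + 1)) (abs_read_le p o _ v) (hxb _)
  have i2 := hb2 _ _ (hxm (n + 1)) (hxm n) (hxb _) (hxb _)
  have i3 := hb2 _ _ (measurable_read p o n v) (hxm n) (abs_read_le p o _ v) (hxb _)
  have h3 : ∫ q, |x (n + 1) q - x n q| ∂joint V ≤
      (1 / 2) ^ n + 36 / p.ε ^ 2 * (1 / 2) ^ n := by
    refine (integral_joint_le ((hxm _).sub (hxm _)).abs (C := 2) (fun q => ?_)
      (B := fun _ => (1 / 2) ^ n + 18 / (p.ε ^ 2 * ((16 ^ (n + 1) : ℕ) : ℝ) * (1 / 2) ^ n) +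
        18 / (p.ε ^ 2 * ((16 ^ n : ℕ) : ℝ) * (1 / 2) ^ n)) (integrable_const _) ?_).trans ?_
    · simp only [Pi.sub_apply, abs_abs]
      have := abs_le.mp (hxb (n + 1) q)
      have := abs_le.mp (hxb n q)
      exact abs_le.mpr ⟨by linarith, by linarith⟩
    · filter_upwards [ae_injOn A] with ρ hρ
      exact p.integral_emp_sub_le hAc hρ hvA (by positivity) (by positivity) (by positivity)
    · simp only [integral_const, probReal_univ, one_smul]
      have a := round_bound p (n := n) (c := 18) (by norm_num)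
      have : 18 / (p.ε ^ 2 * ((16 ^ (n + 1) : ℕ) : ℝ) * (1 / 2) ^ n) ≤
          18 / (p.ε ^ 2 * ((16 ^ n : ℕ) : ℝ) * (1 / 2) ^ n) := by
        have := p.ε_pos
        gcongr
        · norm_num
        · omega
      have e : 36 / p.ε ^ 2 * (1 / 2 : ℝ) ^ n = 2 * (18 / p.ε ^ 2 * (1 / 2) ^ n) := by ring
      linarith
  have hp : (1 / 2 : ℝ) ^ (n + 1) ≤ (1 / 2) ^ n :=
    pow_le_pow_of_le_one (by norm_num) (by norm_num) n.le_succ
  refine (integral_mono_of_nonneg (Eventually.of_forall fun q => abs_nonneg _)
    ((i1.fun_add i2).fun_add i3) (Eventually.of_forall fun q => ?_)).trans ?_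
  · simp only
    rw [abs_sub_comm (read p o n v q) (x n q)]
    exact (abs_sub_le _ (x (n + 1) q) _).trans
      ((add_le_add le_rfl (abs_sub_le _ (x n q) _)).trans_eq (by ring))
  · rw [integral_add (i1.fun_add i2) i3, integral_add i1 i2]
    simp only [read, x, rad, hA] at h1 h2 h3 ⊢
    have e : (6 + 36 / p.ε ^ 2) * (1 / 2 : ℝ) ^ n =
        6 * (1 / 2) ^ n + 36 / p.ε ^ 2 * (1 / 2) ^ n := by ring
    have : (0 : ℝ) ≤ (1 / 2) ^ n := by positivity
    linarith

lemma ae_tendsto_read (o v : V) :
    ∀ᵐ q ∂joint V, Tendsto (fun n => read p o n v q) atTop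
      (𝓝 (limsup (fun n => read p o n v q) atTop)) := by
  set m := G.dist o v with hm
  set f : ℕ → (V → I) × (V × ℕ → I) → ℝ :=
    fun k q => |read p o (k + m + 1) v q - read p o (k + m) v q| with hf
  have hfm : ∀ k, Measurable (f k) := fun k =>
    ((measurable_read p o _ v).sub (measurable_read p o _ v)).abs
  have hfi : ∀ k, Integrable (f k) (joint V) := fun k =>
    integrable_bounded (hfm k) 2 fun q => by
      simp only [f, abs_abs]
      have := abs_le.mp (abs_read_le p o (k + m + 1) v q)
      have := abs_le.mp (abs_read_le p o (k + m) v q)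
      exact abs_le.mpr ⟨by linarith, by linarith⟩
  set c : ℝ := (6 + 36 / p.ε ^ 2) * (1 / 2) ^ m with hc
  have hsum : Summable fun k : ℕ => c * (1 / 2 : ℝ) ^ k :=
    (summable_geometric_of_lt_one (by norm_num) (by norm_num)).mul_left _
  have hfin : ∫⁻ q, ∑' k, ENNReal.ofReal (f k q) ∂joint V ≠ ⊤ := by
    rw [lintegral_tsum fun k => (hfm k).ennreal_ofReal.aemeasurable]
    refine ne_top_of_le_ne_top hsum.tsum_ofReal_ne_top (ENNReal.tsum_le_tsum fun k => ?_)
    rw [← ofReal_integral_eq_lintegral_ofReal (hfi k) (Eventually.of_forall fun q => abs_nonneg _)]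
    refine ENNReal.ofReal_le_ofReal ((read_step p o v (n := k + m) (by omega)).trans_eq ?_)
    rw [hc, pow_add]; ring
  filter_upwards [ae_lt_top (Measurable.ennreal_tsum fun k => (hfm k).ennreal_ofReal) hfin]
    with q hq
  have hs : Summable fun k => f k q := by
    have := ENNReal.summable_toReal hq.ne
    refine this.congr fun k => ?_
    exact ENNReal.toReal_ofReal (abs_nonneg _)
  have hcs : CauchySeq fun k => read p o (k + m) v q :=
    cauchySeq_of_summable_dist (hs.congr fun k => by
      simp only [f, Real.dist_eq, Nat.succ_eq_add_one]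
      rw [abs_sub_comm, Nat.add_right_comm])
  obtain ⟨L, hL⟩ := cauchySeq_tendsto_of_complete hcs
  have hL' : Tendsto (fun n => read p o n v q) atTop (𝓝 L) :=
    (tendsto_add_atTop_iff_nat m).mp hL
  rwa [hL'.limsup_eq]

/-- The limit reading. -/
noncomputable def lread (o v : V) (q : (V → I) × (V × ℕ → I)) : ℝ :=
  limsup (fun n => read p o n v q) atTop

lemma measurable_lread (o v : V) : Measurable (lread p o v) :=
  Measurable.limsup fun n => measurable_read p o n v

lemma ae_lread_sq (o v : V) : ∀ᵐ q ∂joint V, lread p o v q ^ 2 = 1 := by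
  have hc := p.hG.connected
  have hm : ∀ n, Measurable fun q => 1 - read p o n v q ^ 2 := fun n =>
    measurable_const.sub ((measurable_read p o n v).pow_const 2)
  have hb : ∀ x : ℝ, |x| ≤ 1 → 0 ≤ 1 - x ^ 2 ∧ 1 - x ^ 2 ≤ 1 := fun x hx => by
    rw [← sq_abs]; constructor <;> nlinarith [abs_nonneg x]
  have hi : ∀ n, ∫ q, (1 - read p o n v q ^ 2) ∂joint V ≤
      (1 / 2) ^ n + 36 / p.ε ^ 2 * (1 / 2) ^ n := by
    intro n
    refine (integral_joint_le (hm n) (C := 1) (fun q => ?_)
      (B := fun _ => (1 / 2) ^ n + 36 / (p.ε ^ 2 * ((16 ^ n : ℕ) : ℝ) * (1 / 2) ^ n))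
      (integrable_const _) ?_).trans ?_
    · obtain ⟨a, b⟩ := hb _ (abs_read_le p o n v q)
      exact abs_le.mpr ⟨by linarith, b⟩
    · filter_upwards [ae_injOn (bll G v (rad p o n))] with ρ hρ
      exact p.integral_one_sub_sq_le (convex_bll p.hG v _) hρ (self_mem_bll hc v _)
        (by positivity) (by positivity)
    · simp only [integral_const, probReal_univ, one_smul]
      have := round_bound p (n := n) (c := 36) (by norm_num)
      linarith
  have hlim : Tendsto (fun n => ∫ q, (1 - read p o n v q ^ 2) ∂joint V) atTop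
      (𝓝 (∫ q, (1 - lread p o v q ^ 2) ∂joint V)) := by
    refine tendsto_integral_of_dominated_convergence (fun _ => (1 : ℝ))
      (fun n => (hm n).aestronglyMeasurable) (integrable_const _)
      (fun n => Eventually.of_forall fun q => ?_) ?_
    · obtain ⟨a, b⟩ := hb _ (abs_read_le p o n v q)
      rw [Real.norm_eq_abs]; exact abs_le.mpr ⟨by linarith, b⟩
    · filter_upwards [ae_tendsto_read p o v] with q hq
      exact tendsto_const_nhds.sub (hq.pow 2)
  have hnn : 0 ≤ᵐ[joint V] fun q => 1 - lread p o v q ^ 2 := by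
    filter_upwards [ae_tendsto_read p o v] with q hq
    exact ge_of_tendsto (tendsto_const_nhds.sub (hq.pow 2))
      (Eventually.of_forall fun n => (hb _ (abs_read_le p o n v q)).1)
  have h0 : ∫ q, (1 - lread p o v q ^ 2) ∂joint V = 0 := by
    refine le_antisymm (le_of_tendsto_of_tendsto' hlim ?_ hi) (integral_nonneg_of_ae hnn)
    simpa using ((tendsto_pow_atTop_nhds_zero_of_lt_one (by norm_num : (0:ℝ) ≤ 1 / 2)
      (by norm_num)).add ((tendsto_pow_atTop_nhds_zero_of_lt_one (by norm_num : (0:ℝ) ≤ 1 / 2)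
      (by norm_num)).const_mul (36 / p.ε ^ 2)))
  have hint : Integrable (fun q => 1 - lread p o v q ^ 2) (joint V) := by
    refine (integrable_const (1 : ℝ)).mono'
      (measurable_const.sub ((measurable_lread p o v).pow_const 2)).aestronglyMeasurable ?_
    filter_upwards [hnn] with q hq
    rw [Real.norm_eq_abs, abs_of_nonneg hq]
    linarith [sq_nonneg (lread p o v q)]
  filter_upwards [(integral_eq_zero_iff_of_nonneg_ae hnn hint).mp h0] with q hq
  simp only [Pi.zero_apply] at hq
  linarith

lemma integral_match_lread (o : V) {D : Finset V} (hD : Convex' G D) (hDne : D.Nonempty)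
    (η₀ : V → Bool) :
    ∫ q, match' D η₀ (fun v => lread p o v q) ∂joint V = prior G p.θ D η₀ := by
  have hc := p.hG.connected
  have hmm : ∀ x : V → (V → I) × (V × ℕ → I) → ℝ, (∀ v, Measurable (x v)) →
      Measurable fun q => match' D η₀ fun v => x v q := fun x hx => by
    unfold match'
    exact Finset.measurable_prod _ fun v _ =>
      (measurable_const.add ((hx v).const_mul _)).div_const _
  have hlim : Tendsto (fun n => ∫ q, match' D η₀ (fun v => read p o n v q) ∂joint V) atTop
      (𝓝 (∫ q, match' D η₀ (fun v => lread p o v q) ∂joint V)) := by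
    refine tendsto_integral_of_dominated_convergence (fun _ => (1 : ℝ))
      (fun n => (hmm _ fun v => measurable_read p o n v).aestronglyMeasurable) (integrable_const _)
      (fun n => Eventually.of_forall fun q => ?_) ?_
    · obtain ⟨a, b⟩ := match'_range D η₀ (x := fun v => read p o n v q)
        fun v => abs_read_le p o n v q
      rw [Real.norm_eq_abs, abs_of_nonneg a]; exact b
    · filter_upwards [(Finset.eventually_all D).mpr fun v _ => ae_tendsto_read p o v] with q hq
      exact tendsto_finsetProd _ fun v hv =>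
        (tendsto_const_nhds.add (tendsto_const_nhds.mul (hq v hv))).div_const _
  refine tendsto_nhds_unique hlim ?_
  set c : ℝ := D.card * 2 + D.card * ((1 / 2 + 18 / p.ε ^ 2) / 2) with hcdef
  have hev : ∀ᶠ n in atTop, dist (∫ q, match' D η₀ (fun v => read p o n v q) ∂joint V)
      (prior G p.θ D η₀) ≤ c * (1 / 2) ^ n := by
    obtain ⟨N, hN⟩ := exists_bll_superset hc o D
    filter_upwards [eventually_ge_atTop N] with n hn
    obtain ⟨R, hR⟩ := exists_bll_superset hc o (D ∪ D.biUnion fun v => bll G v (rad p o n))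
    set A := bll G o R
    have hAc : Convex' G A := convex_bll p.hG o R
    have hDA : D ⊆ A := Finset.subset_union_left.trans hR
    set x : V → (V → I) × (V × ℕ → I) → ℝ :=
      fun v q => emp p.ε (16 ^ n) v (p.smp A q.1 q.2) with hx
    have hxb : ∀ v q, |x v q| ≤ 1 := fun v q => abs_emp_le _ _ _ _
    have hxm : ∀ v, Measurable (x v) := fun v => measurable_emp_smp p A _ v
    set g := fun q => match' D η₀ fun v => read p o n v q
    set h := fun q => match' D η₀ fun v => x v q
    have hgi : Integrable g (joint V) := integrable_bounded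
      (hmm _ fun v => measurable_read p o n v) 1 fun q => by
        obtain ⟨a, b⟩ := match'_range D η₀ (x := fun v => read p o n v q)
          fun v => abs_read_le p o n v q
        rw [abs_of_nonneg a]; exact b
    have hhi : Integrable h (joint V) := integrable_bounded (hmm _ hxm) 1 fun q => by
      obtain ⟨a, b⟩ := match'_range D η₀ (x := fun v => x v q) fun v => hxb v q
      rw [abs_of_nonneg a]; exact b
    have h1 : |∫ q, g q ∂joint V - ∫ q, h q ∂joint V| ≤ D.card * 2 * (1 / 2) ^ n := by
      rw [← integral_sub hgi hhi]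
      have hd : ∀ v, Integrable (fun q => |read p o n v q - x v q| / 2) (joint V) := fun v =>
        (integrable_bounded ((measurable_read p o n v).sub (hxm v)).abs 2 fun q => by
          simp only [Pi.sub_apply, abs_abs]
          have := abs_le.mp (abs_read_le p o n v q)
          have := abs_le.mp (hxb v q)
          exact abs_le.mpr ⟨by linarith, by linarith⟩).div_const 2
      refine abs_integral_le_integral_abs.trans ?_
      refine (integral_mono_of_nonneg (Eventually.of_forall fun q => abs_nonneg _)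
        (integrable_finsetSum D fun v _ => hd v)
        (Eventually.of_forall fun q => match'_sub D η₀ (fun v => abs_read_le p o n v q)
          (fun v => hxb v q))).trans ?_
      rw [integral_finsetSum _ fun v _ => hd v]
      refine (Finset.sum_le_card_nsmul _ _ (2 * (1 / 2) ^ n) fun v hv => ?_).trans_eq
        (by rw [nsmul_eq_mul]; ring)
      rw [integral_div]
      have := (exists_common_radius p o n).choose_spec v
        (bll_mono hc o hn (hN hv)) A hAc
        ((Finset.subset_biUnion_of_mem (fun v => bll G v (rad p o n)) hv).trans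
          (Finset.subset_union_right.trans hR))
      have hnn : 0 ≤ ∫ q, |read p o n v q - x v q| ∂joint V :=
        integral_nonneg fun q => abs_nonneg _
      simp only [read, x, rad] at this hnn ⊢
      linarith
    have h2 : |∫ q, h q ∂joint V - prior G p.θ D η₀| ≤
        D.card * ((1 / 2 + 18 / p.ε ^ 2) / 2) * (1 / 2) ^ n := by
      rw [show ∫ q, h q ∂joint V - prior G p.θ D η₀ =
          ∫ q, (h q - prior G p.θ D η₀) ∂joint V by
        rw [integral_sub hhi (integrable_const _)]; simp]
      rw [integral_prod (fun q => h q - prior G p.θ D η₀) (hhi.sub (integrable_const _))]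
      refine abs_integral_le_integral_abs.trans ((integral_mono_ae
        (hhi.sub (integrable_const _)).integral_prod_left.abs
        (integrable_const (D.card * ((1 / 2 + 18 / p.ε ^ 2) / 2) * (1 / 2 : ℝ) ^ n)) ?_).trans
        (by simp))
      filter_upwards [ae_injOn A] with ρ hρ
      have hu : Integrable (fun u => h (ρ, u)) (iidLabels (V × ℕ)) :=
        integrable_bounded ((hmm _ hxm).comp measurable_prodMk_left) 1 fun u => by
          obtain ⟨a, b⟩ := match'_range D η₀ (x := fun v => x v (ρ, u)) fun v => hxb v _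
          simp only [Function.comp_apply, h]
          rw [abs_of_nonneg a]; exact b
      simp only [Pi.sub_apply]
      rw [integral_sub hu (integrable_const _)]
      simp only [integral_const, probReal_univ, one_smul]
      refine (p.integral_match_sub_le hAc hD hDne hDA hρ η₀ (K := 16 ^ n) (by positivity)
        (δ := (1 / 2) ^ n) (by positivity)).trans ?_
      have := round_bound p (n := n) (c := 18) (by norm_num)
      rw [mul_assoc (D.card : ℝ)]
      refine mul_le_mul_of_nonneg_left ?_ (Nat.cast_nonneg _)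
      linarith
    rw [Real.dist_eq]
    refine (abs_sub_le _ (∫ q, h q ∂joint V) _).trans ((add_le_add h1 h2).trans_eq ?_)
    rw [hcdef]; ring
  refine tendsto_iff_dist_tendsto_zero.mpr (squeeze_zero' (Eventually.of_forall fun n =>
    dist_nonneg) hev ?_)
  simpa using (tendsto_pow_atTop_nhds_zero_of_lt_one (by norm_num : (0:ℝ) ≤ 1 / 2)
    (by norm_num)).const_mul c

lemma read_comp_iso (o : V) (g : G ≃g G) (U : V → I) (n : ℕ) (v : V) :
    read p o n v (rho (fun w => U (g.symm w)), inp fun w => U (g.symm w)) =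
      read p o n (g.symm v) (rho U, inp U) := by
  simp only [read, emp]
  refine congrArg clipOne (congrArg _ (Finset.sum_congr rfl fun k _ => ?_))
  have hb : bll G v (rad p o n) = (bll G (g.symm v) (rad p o n)).image g := by
    rw [← bll_image p.hG.connected g]; simp
  rw [hb]
  change (2 * ((samp G p.θ p.ε ((bll G (g.symm v) (rad p o n)).image g)
    (fun w => rho U (g.symm w)) (fun i => inp U (g.symm i.1, i.2)) (v, k) : I) : ℝ) - 1) = _
  rw [samp_image]

theorem isFIID_of_params : IsFIIDFreeIsing G p.θ := by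
  obtain ⟨o⟩ := p.hG.connected.nonempty
  set pair : (V → I) → (V → I) × (V × ℕ → I) := fun U => (rho U, inp U) with hpair
  refine ⟨fun U v => decide (0 < lread p o v (pair U)), ?_, ?_, ?_⟩
  · refine measurable_pi_lambda _ fun v => ?_
    apply measurable_to_bool
    have e : (fun U : V → I => decide (0 < lread p o v (pair U))) ⁻¹' {true} =
        {U | 0 < lread p o v (pair U)} := by
      ext U; simp
    rw [e]
    exact measurableSet_lt measurable_const ((measurable_lread p o v).comp measurable_rho_inp)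
  · intro g
    refine Eventually.of_forall fun U => funext fun v => ?_
    simp only [lread, pair, read_comp_iso p o g U]
    congr
  · intro D hDc η₀
    have hD : Convex' G D := convex_of_connected p.hG hDc
    have hDne : D.Nonempty := by
      obtain ⟨x⟩ := hDc.nonempty
      exact ⟨x.1, x.2⟩
    set E : Set ((V → I) × (V × ℕ → I)) :=
      {q | ∀ v ∈ D, decide (0 < lread p o v q) = η₀ v} with hE
    have hEm : MeasurableSet E := by
      have : E = ⋂ v ∈ D, {q | decide (0 < lread p o v q) = η₀ v} := by ext q; simp [hE]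
      rw [this]
      refine Finset.measurableSet_biInter D fun v _ => ?_
      cases h : η₀ v
      · simpa [not_lt] using measurableSet_le (measurable_lread p o v) measurable_const
      · simpa using measurableSet_lt measurable_const (measurable_lread p o v)
    have hpre : {U | ∀ v ∈ D, decide (0 < lread p o v (pair U)) = η₀ v} = pair ⁻¹' E := rfl
    rw [hpre, ← Measure.map_apply measurable_rho_inp hEm, map_rho_inp]
    have hind : ∀ᵐ q ∂joint V, match' D η₀ (fun v => lread p o v q) =
        E.indicator (fun _ => (1 : ℝ)) q := by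
      filter_upwards [(Finset.eventually_all D).mpr fun v _ => ae_lread_sq p o v] with q hq
      by_cases hqE : q ∈ E
      · rw [Set.indicator_of_mem hqE]
        refine Finset.prod_eq_one fun v hv => ?_
        have h := hqE v hv
        rcases sq_eq_one_iff.mp (hq v hv) with e | e <;> norm_num [e, ← h, spin]
      · rw [Set.indicator_of_notMem hqE]
        obtain ⟨v, hv, hne⟩ : ∃ v ∈ D, decide (0 < lread p o v q) ≠ η₀ v := by
          simpa [hE] using hqE
        refine Finset.prod_eq_zero hv ?_
        rcases sq_eq_one_iff.mp (hq v hv) with e | e <;> rcases hh : η₀ v <;>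
          simp_all [spin]
    have := integral_match_lread p o hD hDne η₀
    rw [integral_congr_ae hind, integral_indicator_const _ hEm] at this
    simpa [prior, Measure.real] using this

end Integrals

/-- The free Ising measure is a factor of IID for every `θ` below the threshold. -/
theorem isFIID_below_threshold (hG : G.IsTree) {d : ℕ} (hd : 2 ≤ d)
    (hdeg : ∀ v, G.degree v = d) {θ : ℝ} (hθ0 : 0 ≤ θ) (hθ1 : θ < 1)
    (hθd : θ ^ 2 * ((d : ℝ) - 1) < 1) : IsFIIDFreeIsing G θ := by
  classical
  have := countable_of_isTree hG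
  set q : ℝ := (d : ℝ) - 1 with hqdef
  have hq : 1 ≤ q := by
    have : (2 : ℝ) ≤ d := by exact_mod_cast hd
    linarith
  set s := (Real.sqrt q)⁻¹ with hs
  have hs0 : 0 < s := inv_pos.mpr (Real.sqrt_pos.mpr (by linarith))
  have hss : s ^ 2 * q = 1 := by
    rw [hs, inv_pow, Real.sq_sqrt (by linarith)]; field_simp
  have hθs : θ < s := by
    by_contra hcon
    push Not at hcon
    have := mul_le_mul_of_nonneg_right (pow_le_pow_left₀ hs0.le hcon 2) (by linarith : 0 ≤ q)
    linarith
  set lam := (θ + s) / 2 with hlam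
  have hθlam : θ < lam := by linarith
  have hlam0 : 0 < lam := by linarith
  have hql : q * lam ^ 2 < 1 := by nlinarith
  have hqtl : q * (θ * lam) < 1 := by nlinarith
  set C := (2 / (1 - q * (θ * lam))) / (1 - θ / lam) with hC
  have hC0 : 0 ≤ C :=
    div_nonneg (div_nonneg zero_le_two (by linarith)) (by linarith [(div_lt_one hlam0).mpr hθlam])
  set ε := 1 / (8 * (1 + C)) with hε
  have hε0 : 0 < ε := by positivity
  let p : Params G :=
    { θ := θ, ε := ε, lam := lam, C := C,
      tail := fun n => 2 * (q * lam ^ 2) ^ (n + 1) / (1 - q * lam ^ 2),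
      hG := hG, θ_nonneg := hθ0, θ_lt := hθ1, ε_pos := hε0,
      ε_le := by rw [hε, div_le_iff₀ (by positivity)]; linarith,
      lam_nonneg := hlam0.le, C_nonneg := hC0,
      εC := by
        show 32 * ε ^ 2 * C ≤ 1
        have e : 32 * ε ^ 2 * C = C / (2 * (1 + C) ^ 2) := by rw [hε]; field_simp; ring
        rw [e, div_le_one (by positivity)]
        nlinarith
      conv := fun U v w => conv_le hG hd hdeg hθ0 hθlam hqtl U v w,
      tail_bound := fun U v n hU => by
        rw [Finset.sum_congr rfl (g := fun u => (lam ^ 2) ^ G.dist v u)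
          fun u _ => by rw [← pow_mul, ← pow_mul, mul_comm]]
        exact sum_pow_dist_le hG hd hdeg v (sq_nonneg _) hql U (n + 1) hU,
      tail_tendsto := by
        have h := (tendsto_pow_atTop_nhds_zero_of_lt_one
          (show (0 : ℝ) ≤ q * lam ^ 2 by positivity) hql).comp (tendsto_add_atTop_nat 1)
        simpa using (h.const_mul 2).div_const (1 - q * lam ^ 2) }
  exact isFIID_of_params p

end Vale.Agent.P161
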