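import Vale.Agent.P161.Defs

/-!
# Integration over a countable product of uniform measures
-/

namespace Vale.Agent.P161

open MeasureTheory unitInterval Function

variable {ι : Type*}

instance : IsProbabilityMeasure (iidLabels ι) := by
  unfold iidLabels; infer_instance

variable [DecidableEq ι]

lemma measurable_update₂ (i : ι) :
    Measurable fun p : (ι → I) × I => update p.1 i p.2 := by
  refine measurable_pi_lambda _ fun j => ?_
  by_cases h : j = i
  · subst h; simpa using measurable_snd
  · simpa [h, Function.comp_def] using (measurable_pi_apply j).comp measurable_fst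

/-- Resampling one coordinate preserves the product measure. -/
lemma map_update (i : ι) :
    ((iidLabels ι).prod (volume : Measure I)).map (fun p => update p.1 i p.2) = iidLabels ι := by
  have : IsProbabilityMeasure
      (((iidLabels ι).prod (volume : Measure I)).map (fun p => update p.1 i p.2)) :=
    Measure.isProbabilityMeasure_map (measurable_update₂ i).aemeasurable
  refine Measure.eq_infinitePi _ fun s t ht => ?_
  rw [Measure.map_apply (measurable_update₂ i) (.pi s.countable_toSet fun _ _ => ht _)]
  by_cases his : i ∈ s
  · have hpre : (fun p : (ι → I) × I => update p.1 i p.2) ⁻¹' (s : Set ι).pi t =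
        ((s.erase i : Finset ι) : Set ι).pi t ×ˢ t i := by
      ext ⟨u, x⟩
      simp only [Set.mem_preimage, Set.mem_pi, Finset.mem_coe, Set.mem_prod, Finset.mem_erase]
      constructor
      · intro h
        exact ⟨fun j hj => by simpa [hj.1] using h j hj.2, by simpa using h i his⟩
      · rintro ⟨h1, h2⟩ j hj
        by_cases hji : j = i
        · subst hji; simpa using h2
        · simpa [hji] using h1 j ⟨hji, hj⟩
    rw [hpre, Measure.prod_prod, iidLabels, Measure.infinitePi_pi _ (fun j _ => ht j),
      Finset.prod_erase_mul s (fun j => volume (t j)) his]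
  · have hpre : (fun p : (ι → I) × I => update p.1 i p.2) ⁻¹' (s : Set ι).pi t =
        (s : Set ι).pi t ×ˢ Set.univ := by
      ext ⟨u, x⟩
      simp only [Set.mem_preimage, Set.mem_pi, Finset.mem_coe, Set.mem_prod, Set.mem_univ, and_true]
      constructor <;> intro h j hj <;>
        simpa [show j ≠ i from fun e => his (e ▸ hj)] using h j hj
    rw [hpre, Measure.prod_prod, iidLabels, Measure.infinitePi_pi _ (fun j _ => ht j), measure_univ,
      mul_one]

variable [Countable ι]

lemma integrable_of_continuous {h : (ι → I) → ℝ} (hc : Continuous h) :
    Integrable h (iidLabels ι) :=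
  hc.integrable_of_hasCompactSupport (.of_compactSpace h)

lemma integral_le_integral {f g : (ι → I) → ℝ} (hf : Continuous f) (hg : Continuous g)
    (h : ∀ u, f u ≤ g u) : ∫ u, f u ∂iidLabels ι ≤ ∫ u, g u ∂iidLabels ι :=
  integral_mono (integrable_of_continuous hf) (integrable_of_continuous hg) h

/-- Average over the coordinate `i`. -/
noncomputable def avgOne (i : ι) (h : (ι → I) → ℝ) (u : ι → I) : ℝ := ∫ t, h (update u i t)

omit [Countable ι] in
lemma integrable_section {h : (ι → I) → ℝ} (hc : Continuous h) (i : ι) (u : ι → I) :
    Integrable (fun t : I => h (update u i t)) :=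
  (hc.comp (continuous_const.update i continuous_id)).integrable_of_hasCompactSupport
    (.of_compactSpace _)

lemma continuous_avgOne (i : ι) {h : (ι → I) → ℝ} (hc : Continuous h) :
    Continuous (avgOne i h) := by
  have := continuous_parametric_integral_of_continuous (μ := (volume : Measure I))
    (f := fun (u : ι → I) (t : I) => h (update u i t))
    (hc.comp (continuous_fst.update i continuous_snd)) isCompact_univ
  unfold avgOne
  simpa [setIntegral_univ] using this

lemma integral_avgOne (i : ι) {h : (ι → I) → ℝ} (hc : Continuous h) :
    ∫ u, avgOne i h u ∂iidLabels ι = ∫ u, h u ∂iidLabels ι := by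
  have hint : Integrable (fun p : (ι → I) × I => h (update p.1 i p.2))
      ((iidLabels ι).prod volume) :=
    (hc.comp (continuous_fst.update i continuous_snd)).integrable_of_hasCompactSupport
      (.of_compactSpace _)
  conv_rhs => rw [← map_update i]
  rw [integral_map (measurable_update₂ i).aemeasurable hc.aestronglyMeasurable,
    integral_prod _ hint]
  rfl

/-- Average over a list of coordinates. -/
noncomputable def avgList : List ι → ((ι → I) → ℝ) → (ι → I) → ℝ
  | [], h => h
  | i :: l, h => avgList l (avgOne i h)

lemma continuous_avgList : ∀ (l : List ι) {h : (ι → I) → ℝ}, Continuous h →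
    Continuous (avgList l h)
  | [], _, hc => hc
  | i :: l, _, hc => continuous_avgList l (continuous_avgOne i hc)

omit [Countable ι] in
lemma avgOne_congr (i : ι) {h : (ι → I) → ℝ} {u u' : ι → I} {S : Set ι}
    (hh : DependsOn h S) (huu : ∀ j ∈ S, j ≠ i → u j = u' j) :
    avgOne i h u = avgOne i h u' := by
  refine integral_congr_ae (Filter.Eventually.of_forall fun t => hh fun j hj => ?_)
  by_cases hji : j = i
  · subst hji; simp
  · simp [hji, huu j hj hji]

omit [Countable ι] in
lemma avgList_dependsOn : ∀ (l : List ι) {h : (ι → I) → ℝ} {S : Set ι}, DependsOn h S →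
    DependsOn (avgList l h) (S \ {j | j ∈ l})
  | [], _, S, hh => by simpa [avgList] using hh
  | i :: l, h, S, hh => by
      have : DependsOn (avgOne i h) (S \ {i}) := fun u u' huu =>
        avgOne_congr i hh fun j hj hji => huu j ⟨hj, hji⟩
      intro u u' huu
      refine avgList_dependsOn l this fun j hj => huu j ⟨hj.1.1, ?_⟩
      simp only [Set.mem_ofPred_eq, List.mem_cons, not_or]
      exact ⟨hj.1.2, hj.2⟩

lemma osc_avgOne (i : ι) {h : (ι → I) → ℝ} (hc : Continuous h) {j : ι} {c : ℝ} {a b : I}
    (hj : ∀ u, |h (update u j a) - h (update u j b)| ≤ c) :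
    ∀ u, |avgOne i h (update u j a) - avgOne i h (update u j b)| ≤ c := by
  intro u
  have hc0 : 0 ≤ c := (abs_nonneg _).trans (hj u)
  by_cases hji : j = i
  · subst hji
    simp [avgOne, hc0]
  · unfold avgOne
    rw [← integral_sub (integrable_section hc i _) (integrable_section hc i _)]
    have := norm_integral_le_of_norm_le_const (μ := (volume : Measure I)) (C := c)
      (f := fun t => h (update (update u j a) i t) - h (update (update u j b) i t))
      (Filter.Eventually.of_forall fun t => by
        rw [Real.norm_eq_abs, update_comm hji, update_comm hji]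
        exact hj _)
    simpa using this

lemma osc_avgList : ∀ (l : List ι) {h : (ι → I) → ℝ}, Continuous h → ∀ {j : ι} {c : ℝ} {a b : I},
    (∀ u, |h (update u j a) - h (update u j b)| ≤ c) →
    ∀ u, |avgList l h (update u j a) - avgList l h (update u j b)| ≤ c
  | [], _, _, _, _, _, _, hj => hj
  | i :: l, _, hc, _, _, _, _, hj =>
      osc_avgList l (continuous_avgOne i hc) (osc_avgOne i hc hj)

/-- A bounded-differences bound on the squared error of averaging. -/
lemma integral_sq_sub_avgList : ∀ (l : List ι) {h : (ι → I) → ℝ}, Continuous h → ∀ (c : ι → ℝ),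
    (∀ i ∈ l, ∀ u a b, |h (update u i a) - h (update u i b)| ≤ c i) →
    ∫ u, (h u - avgList l h u) ^ 2 ∂iidLabels ι ≤ (l.map fun i => c i ^ 2).sum
  | [], h, hc, c, _ => by simp [avgList]
  | i :: l, h, hc, c, hl => by
      set g := avgOne i h with hg
      have hgc : Continuous g := continuous_avgOne i hc
      have h1 : ∀ u, |h u - g u| ≤ c i := by
        intro u
        have hbound : ∀ t : I, ‖h u - h (update u i t)‖ ≤ c i := fun t => by
          have := hl i (List.mem_cons_self ..) u (u i) t
          rwa [update_eq_self] at this
        have := norm_integral_le_of_norm_le_const (μ := (volume : Measure I))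
          (f := fun t => h u - h (update u i t)) (Filter.Eventually.of_forall hbound)
        rw [integral_sub (integrable_const _) (integrable_section hc i u)] at this
        simpa [hg, avgOne] using this
      have hd : DependsOn (avgList l g) ({i}ᶜ) := by
        have hg' : DependsOn g ({i}ᶜ) := fun u u' huu =>
          avgOne_congr i (dependsOn_univ h) fun j _ hji => huu j hji
        exact (avgList_dependsOn l hg').mono Set.sdiff_subset
      have ihh := integral_sq_sub_avgList l hgc c fun j hj u a b =>
        osc_avgOne i hc (fun u => hl j (List.mem_cons_of_mem _ hj) u a b) u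
      set K := avgList l g with hK
      have hKc : Continuous K := continuous_avgList l hgc
      have cross : ∫ u, (h u - g u) * (g u - K u) ∂iidLabels ι = 0 := by
        rw [← integral_avgOne i (h := fun u => (h u - g u) * (g u - K u))
          ((hc.sub hgc).mul (hgc.sub hKc))]
        refine integral_eq_zero_of_ae (Filter.Eventually.of_forall fun u => ?_)
        simp only [avgOne, Pi.zero_apply]
        have hgu : ∀ t, g (update u i t) = g u := fun t =>
          avgOne_congr i (dependsOn_univ h) fun j _ hji => by simp [hji]
        have hKu : ∀ t, K (update u i t) = K u := fun t =>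
          hd fun j hj => by simp [Set.mem_compl_singleton_iff.mp hj]
        simp only [hgu, hKu]
        rw [integral_mul_const, integral_sub (integrable_section hc i u) (integrable_const _)]
        simp [hg, avgOne]
      have expand : ∫ u, (h u - K u) ^ 2 ∂iidLabels ι =
          ∫ u, (h u - g u) ^ 2 ∂iidLabels ι + ∫ u, (g u - K u) ^ 2 ∂iidLabels ι := by
        have hA : Integrable (fun u => (h u - g u) ^ 2) (iidLabels ι) :=
          integrable_of_continuous ((hc.sub hgc).pow 2)
        have hB : Integrable (fun u => (g u - K u) ^ 2) (iidLabels ι) :=
          integrable_of_continuous ((hgc.sub hKc).pow 2)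
        have hX : Integrable (fun u => 2 * ((h u - g u) * (g u - K u))) (iidLabels ι) :=
          (integrable_of_continuous ((hc.sub hgc).mul (hgc.sub hKc))).const_mul 2
        have e : (fun u => (h u - K u) ^ 2) = fun u =>
            (h u - g u) ^ 2 + (g u - K u) ^ 2 + 2 * ((h u - g u) * (g u - K u)) := by
          ext u; ring
        rw [e, integral_add (hA.fun_add hB) hX, integral_add hA hB, integral_const_mul, cross]
        ring
      have first : ∫ u, (h u - g u) ^ 2 ∂iidLabels ι ≤ c i ^ 2 := by
        have := integral_le_integral (f := fun u => (h u - g u) ^ 2) ((hc.sub hgc).pow 2)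
          (continuous_const (y := c i ^ 2))
          fun u => by
            rw [← sq_abs]
            exact pow_le_pow_left₀ (abs_nonneg _) (h1 u) 2
        simpa using this
      simp only [avgList, List.map_cons, List.sum_cons]
      rw [expand]
      exact add_le_add first ihh

omit [DecidableEq ι] in
/-- An integral over the unit interval as an interval integral. -/
lemma integral_unitInterval (h : I → ℝ) :
    ∫ t, h t = ∫ x in (0 : ℝ)..1, h (Set.projIcc 0 1 zero_le_one x) := by
  rw [intervalIntegral.integral_of_le zero_le_one, ← integral_Icc_eq_integral_Ioc,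
    ← integral_subtype measurableSet_Icc]
  refine integral_congr_ae (Filter.Eventually.of_forall fun t => ?_)
  simp [Set.projIcc_val]

end Vale.Agent.P161
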