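import Vale.Agent.P161.Finite
import Vale.Agent.P161.Cube

/-!
# The sequential sampler on a finite subtree
-/

namespace Vale.Agent.P161

open MeasureTheory unitInterval Function SimpleGraph

variable {V : Type*} {G : SimpleGraph V} {θ ε : ℝ}

/-- Clip a real into `[-1/2, 1/2]`. -/
noncomputable def clipHalf (a : ℝ) : ℝ := max (-(1 / 2)) (min a (1 / 2))

lemma clipHalf_mem (a : ℝ) : -(1 / 2) ≤ clipHalf a ∧ clipHalf a ≤ 1 / 2 :=
  ⟨le_max_left _ _, max_le (by norm_num) (min_le_right _ _)⟩

lemma clipHalf_eq {a : ℝ} (h : |a| ≤ 1 / 2) : clipHalf a = a := by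
  obtain ⟨h1, h2⟩ := abs_le.mp h
  rw [clipHalf, min_eq_left h2, max_eq_right h1]

/-- The distribution function `y + a (y² - y)`. -/
noncomputable def cdfMix (a y : ℝ) : ℝ := y + a * (y ^ 2 - y)

lemma exists_cdfMix (a : ℝ) (u : I) : ∃ y : I, cdfMix (clipHalf a) y = u := by
  have hc : Continuous fun y : ℝ => cdfMix (clipHalf a) y := by unfold cdfMix; fun_prop
  have := intermediate_value_Icc zero_le_one hc.continuousOn
  obtain ⟨y, hy, hyu⟩ := this (a := (u : ℝ)) (by simpa [cdfMix] using u.2)
  exact ⟨⟨y, hy⟩, hyu⟩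

/-- The inverse distribution function. -/
noncomputable def invCdf (a : ℝ) (u : I) : I := (exists_cdfMix a u).choose

lemma cdfMix_invCdf (a : ℝ) (u : I) : cdfMix (clipHalf a) (invCdf a u) = u :=
  (exists_cdfMix a u).choose_spec

lemma cdfMix_inj_bound {a : ℝ} (h1 : -(1 / 2) ≤ a) (h2 : a ≤ 1 / 2) (y y' : I) :
    |(y : ℝ) - y'| ≤ 2 * |cdfMix a y - cdfMix a y'| := by
  have e : cdfMix a y - cdfMix a y' = ((y : ℝ) - y') * (1 + a * ((y : ℝ) + y' - 1)) := by
    simp only [cdfMix]; ring
  have hf : 1 / 2 ≤ 1 + a * ((y : ℝ) + y' - 1) := by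
    nlinarith [y.2.1, y.2.2, y'.2.1, y'.2.2]
  rw [e, abs_mul, abs_of_nonneg (show (0 : ℝ) ≤ 1 + a * ((y : ℝ) + y' - 1) by linarith)]
  nlinarith [abs_nonneg ((y : ℝ) - y')]

lemma invCdf_dist (a a' : ℝ) (u u' : I) :
    |(invCdf a u : ℝ) - invCdf a' u'| ≤ 2 * (|(u : ℝ) - u'| + |a - a'|) := by
  set y := invCdf a u
  set y' := invCdf a' u'
  have e1 := cdfMix_invCdf a u
  have e2 := cdfMix_invCdf a' u'
  obtain ⟨h1, h2⟩ := clipHalf_mem a
  refine (cdfMix_inj_bound h1 h2 y y').trans (mul_le_mul_of_nonneg_left ?_ zero_le_two)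
  have h3 : |clipHalf a - clipHalf a'| ≤ |a - a'| := by
    unfold clipHalf
    refine (abs_max_sub_max_le_max _ _ _ _).trans ?_
    rw [sub_self, abs_zero, max_eq_right (abs_nonneg _)]
    refine (abs_min_sub_min_le_max _ _ _ _).trans_eq ?_
    rw [sub_self, abs_zero, max_eq_left (abs_nonneg _)]
  have e : cdfMix (clipHalf a) y - cdfMix (clipHalf a) y' =
      ((u : ℝ) - u') + (clipHalf a' - clipHalf a) * ((y' : ℝ) ^ 2 - y') := by
    rw [e1, ← e2]; simp only [cdfMix, y']; ring
  rw [e]
  refine (abs_add_le _ _).trans (add_le_add le_rfl ?_)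
  have hb : |(y' : ℝ) ^ 2 - y'| ≤ 1 :=
    abs_le.mpr ⟨by nlinarith [y'.2.1, y'.2.2], by nlinarith [y'.2.1, y'.2.2]⟩
  calc |(clipHalf a' - clipHalf a) * ((y' : ℝ) ^ 2 - y')|
      ≤ |a - a'| * 1 := by
        rw [abs_mul, abs_sub_comm (clipHalf a')]
        exact mul_le_mul h3 hb (abs_nonneg _) (abs_nonneg _)
    _ = _ := mul_one _

lemma continuous_invCdf : Continuous fun p : ℝ × I => invCdf p.1 p.2 := by
  refine continuous_induced_rng.mpr (LipschitzWith.continuous (K := 4) ?_)
  refine LipschitzWith.of_dist_le_mul fun p q => ?_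
  simp only [Function.comp_apply, Real.dist_eq, Prod.dist_eq, Subtype.dist_eq]
  refine (invCdf_dist _ _ _ _).trans ?_
  push_cast
  linarith [le_max_left |p.1 - q.1| |(p.2 : ℝ) - q.2|, le_max_right |p.1 - q.1| |(p.2 : ℝ) - q.2|]

lemma cdfMix_mem {a : ℝ} (h : |a| ≤ 1) (y : I) : cdfMix a y ∈ Set.Icc (0 : ℝ) 1 := by
  obtain ⟨h1, h2⟩ := abs_le.mp h
  constructor <;> unfold cdfMix <;>
    nlinarith [mul_nonneg y.2.1 (sub_nonneg.mpr y.2.2),
      mul_nonneg (sub_nonneg.mpr y.2.2) (show (0 : ℝ) ≤ 1 + a * y by nlinarith [y.2.1, y.2.2]),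
      mul_nonneg y.2.1 (show (0 : ℝ) ≤ 1 + a * (y - 1) by nlinarith [y.2.1, y.2.2])]

lemma invCdf_cdfMix {a : ℝ} (h : |a| ≤ 1 / 2) (y : I) :
    invCdf a ⟨cdfMix a y, cdfMix_mem (h.trans (by norm_num)) y⟩ = y := by
  obtain ⟨h1, h2⟩ := abs_le.mp h
  have e := cdfMix_invCdf a ⟨cdfMix a y, cdfMix_mem (h.trans (by norm_num)) y⟩
  rw [clipHalf_eq h] at e
  have := cdfMix_inj_bound h1 h2 (invCdf a ⟨cdfMix a y, cdfMix_mem (h.trans (by norm_num)) y⟩) y
  rw [e] at this
  simp only [sub_self, abs_zero, mul_zero] at this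
  exact Subtype.ext (sub_eq_zero.mp (abs_eq_zero.mp (le_antisymm this (abs_nonneg _))))

/-- Change of variables for the inverse distribution function. -/
lemma integral_invCdf {a : ℝ} (h : |a| ≤ 1 / 2) {φ : I → ℝ} (hφ : Continuous φ) :
    ∫ t, φ (invCdf a t) = ∫ t : I, φ t * (1 + a * (2 * (t : ℝ) - 1)) := by
  have hproj : ∀ x : ℝ, x ∈ Set.Icc (0 : ℝ) 1 →
      (Set.projIcc 0 1 zero_le_one x : ℝ) = x := fun x hx => by
    simp [Set.projIcc_of_mem _ hx]
  rw [integral_unitInterval, integral_unitInterval]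
  have hd : ∀ x ∈ Set.uIcc (0 : ℝ) 1,
      HasDerivAt (cdfMix a) (1 + a * (2 * x - 1)) x := fun x _ => by
    have := (hasDerivAt_id x).add ((((hasDerivAt_id x).pow 2).sub (hasDerivAt_id x)).const_mul a)
    exact this.congr_deriv (by simp)
  have hg : Continuous fun x : ℝ => φ (invCdf a (Set.projIcc 0 1 zero_le_one x)) :=
    hφ.comp (continuous_invCdf.comp
      (continuous_const.prodMk (continuous_projIcc (h := zero_le_one))))
  have key := intervalIntegral.integral_comp_mul_deriv hd
    (by fun_prop) hg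
  rw [show cdfMix a 0 = 0 by simp [cdfMix], show cdfMix a 1 = 1 by simp [cdfMix]] at key
  rw [← key]
  refine intervalIntegral.integral_congr fun x hx => ?_
  rw [Set.uIcc_of_le zero_le_one] at hx
  have e : Set.projIcc (0 : ℝ) 1 zero_le_one (cdfMix a x) =
      ⟨cdfMix a (Set.projIcc (0 : ℝ) 1 zero_le_one x : I),
        cdfMix_mem (h.trans (by norm_num)) _⟩ := by
    apply Subtype.ext
    simp only [hproj x hx]
    exact hproj _ (cdfMix_mem (h.trans (by norm_num)) ⟨x, hx⟩)
  simp only [Function.comp_apply]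
  rw [e, invCdf_cdfMix h, hproj x hx]

/-- Observations as reals. -/
def rv (y : V × ℕ → I) : V × ℕ → ℝ := fun j => (y j : ℝ)

lemma rv_mem (y : V × ℕ → I) (j : V × ℕ) : rv y j ∈ Set.Icc (0 : ℝ) 1 := (y j).2

/-- Marginal density of the observations in `S`. -/
noncomputable def dens (G : SimpleGraph V) (θ ε : ℝ) (A : Finset V) (S : Finset (V × ℕ))
    (y : V × ℕ → I) : ℝ := Ev G θ A fun η => lik ε S η (rv y)

/-- Unnormalised posterior mean of the spin at `v`. -/
noncomputable def numer (G : SimpleGraph V) (θ ε : ℝ) (A : Finset V) (S : Finset (V × ℕ)) (v : V)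
    (y : V × ℕ → I) : ℝ := Ev G θ A fun η => lik ε S η (rv y) * spin (η v)

/-- Posterior mean of the spin at `v`. -/
noncomputable def pmean (G : SimpleGraph V) (θ ε : ℝ) (A : Finset V) (S : Finset (V × ℕ)) (v : V)
    (y : V × ℕ → I) : ℝ := numer G θ ε A S v y / dens G θ ε A S y

/-- `i` is revealed before `j`. -/
def Before (ρ : V → I) (i j : V × ℕ) : Prop := i.2 < j.2 ∨ (i.2 = j.2 ∧ ρ i.1 < ρ j.1)

open Classical in
/-- The observations revealed before `j`. -/
noncomputable def past (A : Finset V) (ρ : V → I) (j : V × ℕ) : Finset (V × ℕ) :=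
  (A ×ˢ Finset.range (j.2 + 1)).filter fun i => Before ρ i j

lemma mem_past {A : Finset V} {ρ : V → I} {i j : V × ℕ} :
    i ∈ past A ρ j ↔ i.1 ∈ A ∧ Before ρ i j := by
  classical
  unfold past
  rw [Finset.mem_filter, Finset.mem_product, Finset.mem_range]
  unfold Before
  constructor
  · rintro ⟨⟨h, -⟩, h'⟩; exact ⟨h, h'⟩
  · rintro ⟨h, h'⟩; exact ⟨⟨h, by omega⟩, h'⟩

lemma not_before_self (ρ : V → I) (j : V × ℕ) : ¬ Before ρ j j := by simp [Before]

lemma Before.trans {ρ : V → I} {a b c : V × ℕ} (h : Before ρ a b) (h' : Before ρ b c) :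
    Before ρ a c := by
  rcases h with h | ⟨h, h2⟩ <;> rcases h' with h' | ⟨h', h2'⟩
  · exact Or.inl (h.trans h')
  · exact Or.inl (h' ▸ h)
  · exact Or.inl (h ▸ h')
  · exact Or.inr ⟨h.trans h', h2.trans h2'⟩

lemma Before.le {ρ : V → I} {a b : V × ℕ} (h : Before ρ a b) : a.2 ≤ b.2 := by
  rcases h with h | ⟨h, -⟩ <;> omega

lemma past_subset {A : Finset V} {ρ : V → I} {i j : V × ℕ} (h : i ∈ past A ρ j) :
    past A ρ i ⊆ past A ρ j := fun a ha => by
  rw [mem_past] at *
  exact ⟨ha.1, ha.2.trans h.2⟩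

lemma card_past_lt {A : Finset V} {ρ : V → I} {i j : V × ℕ} (h : i ∈ past A ρ j) :
    (past A ρ i).card < (past A ρ j).card :=
  Finset.card_lt_card ⟨past_subset h,
    fun hh => not_before_self ρ i (mem_past.mp (hh h)).2⟩

lemma past_mono {A A' : Finset V} (h : A ⊆ A') (ρ : V → I) (j : V × ℕ) :
    past A ρ j ⊆ past A' ρ j := fun i hi => by
  rw [mem_past] at *; exact ⟨h hi.1, hi.2⟩

lemma past_induction {A : Finset V} {ρ : V → I} {P : V × ℕ → Prop}
    (h : ∀ j, (∀ i ∈ past A ρ j, P i) → P j) (j : V × ℕ) : P j := by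
  induction hn : (past A ρ j).card using Nat.strong_induction_on generalizing j with
  | _ n ih => exact h j fun i hi => ih _ (hn ▸ card_past_lt hi) i rfl

/-- Iterated sampler with fuel. -/
noncomputable def sampIter (G : SimpleGraph V) (θ ε : ℝ) (A : Finset V) (ρ : V → I)
    (u : V × ℕ → I) : ℕ → V × ℕ → I
  | 0 => u
  | n + 1 => fun j =>
      invCdf (ε * pmean G θ ε A (past A ρ j) j.1 (sampIter G θ ε A ρ u n)) (u j)

/-- The sampler. -/
noncomputable def samp (G : SimpleGraph V) (θ ε : ℝ) (A : Finset V) (ρ : V → I)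
    (u : V × ℕ → I) (j : V × ℕ) : I :=
  sampIter G θ ε A ρ u ((past A ρ j).card + 1) j

lemma lik_congr_obs {S : Finset (V × ℕ)} {y y' : V × ℕ → I} (h : ∀ j ∈ S, y j = y' j)
    (η : V → Bool) : lik ε S η (rv y) = lik ε S η (rv y') :=
  Finset.prod_congr rfl fun j hj => by simp [rv, h j hj]

lemma pmean_congr {A : Finset V} {S : Finset (V × ℕ)} {v : V} {y y' : V × ℕ → I}
    (h : ∀ j ∈ S, y j = y' j) : pmean G θ ε A S v y = pmean G θ ε A S v y' := by
  simp only [pmean, numer, dens, lik_congr_obs h]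

lemma sampIter_stable (A : Finset V) (ρ : V → I) (u : V × ℕ → I) :
    ∀ j n, (past A ρ j).card < n → sampIter G θ ε A ρ u n j = samp G θ ε A ρ u j := by
  refine past_induction (A := A) (ρ := ρ) fun j ih n hn => ?_
  obtain ⟨m, rfl⟩ : ∃ m, n = m + 1 := ⟨n - 1, by omega⟩
  simp only [samp, sampIter]
  rw [pmean_congr (y' := samp G θ ε A ρ u) fun i hi => ih i hi m ((card_past_lt hi).trans_le
      (by omega)),
    pmean_congr (y := sampIter G θ ε A ρ u (past A ρ j).card) (y' := samp G θ ε A ρ u)
      fun i hi => ih i hi _ (card_past_lt hi)]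

lemma samp_eq (A : Finset V) (ρ : V → I) (u : V × ℕ → I) (j : V × ℕ) :
    samp G θ ε A ρ u j =
      invCdf (ε * pmean G θ ε A (past A ρ j) j.1 (samp G θ ε A ρ u)) (u j) := by
  conv_lhs => rw [samp, sampIter]
  beta_reduce
  rw [pmean_congr (y' := samp G θ ε A ρ u)
    fun i hi => sampIter_stable A ρ u i _ (card_past_lt hi)]

lemma samp_unique {A : Finset V} {ρ : V → I} {u y : V × ℕ → I}
    (h : ∀ j, y j = invCdf (ε * pmean G θ ε A (past A ρ j) j.1 y) (u j)) :
    samp G θ ε A ρ u = y := by
  ext1 j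
  induction j using past_induction (A := A) (ρ := ρ) with
  | h j ih => rw [samp_eq, h j, pmean_congr ih]

lemma samp_congr {A : Finset V} {ρ : V → I} {u u' : V × ℕ → I} :
    ∀ j, (u j = u' j) → (∀ i ∈ past A ρ j, u i = u' i) →
      samp G θ ε A ρ u j = samp G θ ε A ρ u' j := by
  refine past_induction (A := A) (ρ := ρ) fun j ih hj hp => ?_
  rw [samp_eq, samp_eq A ρ u' j, hj, pmean_congr fun i hi => ih i hi (hp i hi)
    fun a ha => hp a (past_subset hi ha)]

/-- The innovations of `y` seen from `A`. -/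
noncomputable def innov (G : SimpleGraph V) (θ ε : ℝ) (A : Finset V) (ρ : V → I)
    (y : V × ℕ → I) (j : V × ℕ) : I :=
  Set.projIcc 0 1 zero_le_one (cdfMix (ε * pmean G θ ε A (past A ρ j) j.1 y) (y j))

section Facts

variable (hθ : |θ| < 1) (hε : 0 ≤ ε) (hε1 : ε ≤ 1 / 4)
include hθ hε hε1

lemma dens_pos (A : Finset V) (S : Finset (V × ℕ)) (y : V × ℕ → I) :
    0 < dens G θ ε A S y :=
  Ev_pos hθ fun η => lik_pos hε (by linarith) (rv_mem y) η

lemma abs_pmean_le (A : Finset V) (S : Finset (V × ℕ)) (v : V) (y : V × ℕ → I) :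
    |pmean G θ ε A S v y| ≤ 1 := by
  rw [pmean, abs_div, abs_of_pos (dens_pos hθ hε hε1 A S y),
    div_le_one (dens_pos hθ hε hε1 A S y)]
  refine (abs_Ev_le hθ _).trans (Ev_mono hθ fun η => ?_)
  rw [abs_mul, abs_spin, mul_one, abs_of_pos (lik_pos hε (by linarith) (rv_mem y) η)]

lemma abs_eps_pmean_le (A : Finset V) (S : Finset (V × ℕ)) (v : V) (y : V × ℕ → I) :
    |ε * pmean G θ ε A S v y| ≤ 1 / 2 := by
  rw [abs_mul, abs_of_nonneg hε]
  nlinarith [abs_pmean_le (G := G) hθ hε hε1 A S v y, abs_nonneg (pmean G θ ε A S v y)]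

lemma innov_val (A : Finset V) (ρ : V → I) (y : V × ℕ → I) (j : V × ℕ) :
    (innov G θ ε A ρ y j : ℝ) = cdfMix (ε * pmean G θ ε A (past A ρ j) j.1 y) (y j) := by
  rw [innov, Set.projIcc_of_mem zero_le_one
    (cdfMix_mem ((abs_eps_pmean_le hθ hε hε1 A _ _ y).trans (by norm_num)) (y j))]

lemma samp_innov (A : Finset V) (ρ : V → I) (y : V × ℕ → I) :
    samp G θ ε A ρ (innov G θ ε A ρ y) = y := by
  refine samp_unique fun j => ?_
  have h := abs_eps_pmean_le (G := G) hθ hε hε1 A (past A ρ j) j.1 y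
  have e : innov G θ ε A ρ y j = ⟨_, cdfMix_mem (h.trans (by norm_num)) (y j)⟩ :=
    Subtype.ext (innov_val hθ hε hε1 A ρ y j)
  rw [e, invCdf_cdfMix h]

lemma innov_samp (A : Finset V) (ρ : V → I) (u : V × ℕ → I) :
    innov G θ ε A ρ (samp G θ ε A ρ u) = u := by
  ext1 j
  apply Subtype.ext
  rw [innov_val hθ hε hε1]
  conv_lhs => rw [samp_eq]
  have h := abs_eps_pmean_le (G := G) hθ hε hε1 A (past A ρ j) j.1 (samp G θ ε A ρ u)
  have := cdfMix_invCdf (ε * pmean G θ ε A (past A ρ j) j.1 (samp G θ ε A ρ u)) (u j)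
  rwa [clipHalf_eq h] at this

omit hθ hε hε1 in
lemma continuous_lik (S : Finset (V × ℕ)) (η : V → Bool) :
    Continuous fun y : V × ℕ → I => lik ε S η (rv y) := by
  unfold lik rv; fun_prop

omit hθ hε hε1 in
lemma continuous_evLik (A : Finset V) (S : Finset (V × ℕ)) (h : (V → Bool) → ℝ) :
    Continuous fun y : V × ℕ → I => Ev G θ A fun η => lik ε S η (rv y) * h η := by
  unfold Ev
  exact continuous_finsetSum _ fun s _ =>
    continuous_const.mul ((continuous_lik S _).mul continuous_const)

omit hθ hε hε1 in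
lemma continuous_dens (A : Finset V) (S : Finset (V × ℕ)) :
    Continuous fun y : V × ℕ → I => dens G θ ε A S y := by
  simpa [dens] using continuous_evLik (G := G) (θ := θ) (ε := ε) A S fun _ => 1

lemma continuous_pmean (A : Finset V) (S : Finset (V × ℕ)) (v : V) :
    Continuous fun y : V × ℕ → I => pmean G θ ε A S v y :=
  (continuous_evLik A S fun η => spin (η v)).div (continuous_dens A S)
    fun y => (dens_pos hθ hε hε1 A S y).ne'

lemma continuous_sampIter (A : Finset V) (ρ : V → I) :
    ∀ n, Continuous fun u : V × ℕ → I => sampIter G θ ε A ρ u n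
  | 0 => continuous_id
  | n + 1 => continuous_pi fun j => continuous_invCdf.comp
      ((continuous_const.mul ((continuous_pmean hθ hε hε1 A _ _).comp
        (continuous_sampIter A ρ n))).prodMk (continuous_apply j))

lemma continuous_samp (A : Finset V) (ρ : V → I) :
    Continuous fun u : V × ℕ → I => samp G θ ε A ρ u :=
  continuous_pi fun j =>
    (continuous_apply j).comp (continuous_sampIter hθ hε hε1 A ρ ((past A ρ j).card + 1))

lemma continuous_innov (A : Finset V) (ρ : V → I) :
    Continuous fun y : V × ℕ → I => innov G θ ε A ρ y :=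
  continuous_pi fun j => continuous_projIcc.comp
    ((show Continuous fun p : ℝ × ℝ => cdfMix p.1 p.2 by unfold cdfMix; fun_prop).comp
      ((continuous_const.mul (continuous_pmean hθ hε hε1 A _ _)).prodMk
        (continuous_subtype_val.comp (continuous_apply j))))

end Facts

lemma Ev_lik_insert [DecidableEq V] (A : Finset V) {T : Finset (V × ℕ)} {j : V × ℕ} (hj : j ∉ T)
    (h : (V → Bool) → ℝ) (y : V × ℕ → I) (t : I) :
    Ev G θ A (fun η => lik ε (insert j T) η (rv (update y j t)) * h η) =
      Ev G θ A (fun η => lik ε T η (rv y) * h η) +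
        ε * (2 * (t : ℝ) - 1) * Ev G θ A (fun η => lik ε T η (rv y) * (spin (η j.1) * h η)) := by
  rw [← Ev_const_mul, ← Ev_add]
  refine Ev_congr fun η => ?_
  have : lik ε T η (rv (update y j t)) = lik ε T η (rv y) :=
    lik_congr_obs (fun i hi => by simp [show i ≠ j from fun e => hj (e ▸ hi)]) η
  simp only [lik] at this ⊢
  rw [Finset.prod_insert hj, this]
  simp only [rv, update_self]
  ring

variable [Countable V] [DecidableEq V]

omit [Countable V] [DecidableEq V] in
lemma dependsOn_evLik (A : Finset V) (S : Finset (V × ℕ)) (h : (V → Bool) → ℝ) :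
    DependsOn (fun y : V × ℕ → I => Ev G θ A fun η => lik ε S η (rv y) * h η) (S : Set _) :=
  fun y y' hy => Ev_congr fun η => by rw [lik_congr_obs (fun j hj => hy j hj) η]

/-- Observations outside the support of the test function integrate out. -/
lemma integral_marginal (A : Finset V) {S S' : Finset (V × ℕ)} (hS : S ⊆ S')
    {f : (V × ℕ → I) → ℝ} (hf : Continuous f) (hd : DependsOn f (S : Set _))
    (h : (V → Bool) → ℝ) :
    ∫ y, f y * Ev G θ A (fun η => lik ε S' η (rv y) * h η) ∂iidLabels (V × ℕ) =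
      ∫ y, f y * Ev G θ A (fun η => lik ε S η (rv y) * h η) ∂iidLabels (V × ℕ) := by
  suffices ∀ T, Disjoint S T →
      ∫ y, f y * Ev G θ A (fun η => lik ε (T ∪ S) η (rv y) * h η) ∂iidLabels (V × ℕ) =
        ∫ y, f y * Ev G θ A (fun η => lik ε S η (rv y) * h η) ∂iidLabels (V × ℕ) by
    have := this (S' \ S) Finset.disjoint_sdiff
    rwa [Finset.sdiff_union_of_subset hS] at this
  intro T hT
  induction T using Finset.induction_on with
  | empty => simp
  | @insert j T hj ih =>
    rw [Finset.disjoint_insert_right] at hT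
    rw [← ih hT.2, ← integral_avgOne j (h := fun y => f y *
      Ev G θ A fun η => lik ε (insert j T ∪ S) η (rv y) * h η) (hf.mul (continuous_evLik A _ h))]
    refine integral_congr_ae (Filter.Eventually.of_forall fun y => ?_)
    have hj' : j ∉ T ∪ S := by simp [hj, hT.1]
    have e : ∀ t, f (update y j t) = f y := fun t => hd fun i hi => by
      simp [show i ≠ j from fun e => hT.1 (e ▸ hi)]
    simp only [avgOne, e, Finset.insert_union, Ev_lik_insert A hj' h y]
    rw [integral_const_mul]
    congr 1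
    rw [integral_unitInterval]
    have : ∀ x ∈ Set.uIcc (0 : ℝ) 1, (Set.projIcc 0 1 zero_le_one x : ℝ) = x := fun x hx => by
      rw [Set.uIcc_of_le zero_le_one] at hx; simp [Set.projIcc_of_mem _ hx]
    set X := Ev G θ A fun η => lik ε (T ∪ S) η (rv y) * h η
    set Y := Ev G θ A fun η => lik ε (T ∪ S) η (rv y) * (spin (η j.1) * h η)
    rw [intervalIntegral.integral_congr (g := fun x => (X - ε * Y) + 2 * ε * Y * x)
      (fun x hx => by simp only [this x hx]; ring),
      intervalIntegral.integral_add intervalIntegrable_const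
        (intervalIntegral.intervalIntegrable_id.const_mul _),
      intervalIntegral.integral_const_mul, integral_id, intervalIntegral.integral_const]
    simp; ring

section Law

variable (hG : G.IsTree) (hθ : |θ| < 1) (hε : 0 ≤ ε) (hε1 : ε ≤ 1 / 4)
include hG hθ hε hε1

/-- The sampler has exactly the law of the observations. -/
lemma integral_samp {A : Finset V} (hA : Convex' G A) (hne : A.Nonempty) {ρ : V → I}
    (hρ : Set.InjOn ρ A) :
    ∀ (S : Finset (V × ℕ)), (∀ j ∈ S, j.1 ∈ A) → (∀ j ∈ S, past A ρ j ⊆ S) →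
      ∀ f : (V × ℕ → I) → ℝ, Continuous f → DependsOn f (S : Set _) →
        ∫ u, f (samp G θ ε A ρ u) ∂iidLabels (V × ℕ) =
          ∫ y, f y * dens G θ ε A S y ∂iidLabels (V × ℕ) := by
  intro S
  induction S using Finset.strongInduction with
  | _ S ih =>
    intro hSA hcl f hf hfd
    rcases S.eq_empty_or_nonempty with rfl | hSne
    · have h1 : ∀ y, dens G θ ε A ∅ y = 1 := fun y => by
        simp [dens, lik, Ev_one hG hA hne]
      simp only [h1, mul_one]
      refine integral_congr_ae (Filter.Eventually.of_forall fun u => ?_)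
      exact hfd (by simp)
    · obtain ⟨j, hj, hmax⟩ := S.exists_max_image (fun i => (past A ρ i).card) hSne
      set S' := S.erase j with hS'
      have hnot : ∀ i ∈ S, j ∉ past A ρ i := fun i hi h =>
        absurd (hmax i hi) (not_le.mpr (card_past_lt h))
      have hpast : past A ρ j = S' := by
        refine Finset.Subset.antisymm (fun i hi => Finset.mem_erase.mpr
          ⟨fun e => not_before_self ρ j (mem_past.mp (e ▸ hi)).2, hcl j hj hi⟩) fun i hi => ?_
        obtain ⟨hij, hiS⟩ := Finset.mem_erase.mp hi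
        have hb := hnot i hiS
        rw [mem_past] at hb ⊢
        refine ⟨hSA i hiS, ?_⟩
        have hb : ¬ Before ρ j i := fun h => hb ⟨hSA j hj, h⟩
        unfold Before at hb ⊢
        rcases lt_trichotomy i.2 j.2 with h | h | h
        · exact Or.inl h
        · rcases lt_trichotomy (ρ i.1) (ρ j.1) with h' | h' | h'
          · exact Or.inr ⟨h, h'⟩
          · exact absurd (Prod.ext (hρ (hSA i hiS) (hSA j hj) h') h) hij
          · exact absurd (Or.inr ⟨h.symm, h'⟩) hb
        · exact absurd (Or.inl h) hb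
      set a : (V × ℕ → I) → ℝ := fun y => ε * pmean G θ ε A S' j.1 y with ha
      have hac : Continuous a := continuous_const.mul (continuous_pmean hθ hε hε1 A _ _)
      set g : (V × ℕ → I) → ℝ := fun y => ∫ t : I, f (update y j (invCdf (a y) t)) with hg
      have hgc : Continuous g := by
        have := continuous_parametric_integral_of_continuous (μ := (volume : Measure I))
          (f := fun (y : V × ℕ → I) (t : I) => f (update y j (invCdf (a y) t)))
          (hf.comp (continuous_fst.update j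
            (continuous_invCdf.comp ((hac.comp continuous_fst).prodMk continuous_snd))))
          isCompact_univ
        rw [hg]
        simpa [setIntegral_univ] using this
      have hgd : DependsOn g (S' : Set _) := fun y y' hy => by
        have : a y = a y' := by simp only [ha, pmean_congr (fun i hi => hy i hi)]
        simp only [hg, this]
        refine integral_congr_ae (Filter.Eventually.of_forall fun t => hfd fun i hi => ?_)
        by_cases hij : i = j
        · subst hij; simp
        · simpa [hij] using hy i (Finset.mem_erase.mpr ⟨hij, hi⟩)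
      have hS'sub : ∀ i ∈ S', i ∈ S := fun i hi => Finset.mem_of_mem_erase hi
      have IH := ih S' (Finset.erase_ssubset hj) (fun i hi => hSA i (hS'sub i hi))
        (fun i hi => hpast ▸ past_subset (hpast.symm ▸ hi)) g hgc hgd
      have step1 : ∫ u, f (samp G θ ε A ρ u) ∂iidLabels (V × ℕ) =
          ∫ u, g (samp G θ ε A ρ u) ∂iidLabels (V × ℕ) := by
        rw [← integral_avgOne j (h := fun u => f (samp G θ ε A ρ u))
          (hf.comp (continuous_samp hθ hε hε1 A ρ))]
        refine integral_congr_ae (Filter.Eventually.of_forall fun u => ?_)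
        refine integral_congr_ae (Filter.Eventually.of_forall fun t => hfd fun i hi => ?_)
        have hsame : ∀ i ∈ S', samp G θ ε A ρ (update u j t) i = samp G θ ε A ρ u i := fun i hi =>
          samp_congr i (by simp [(Finset.mem_erase.mp hi).1]) fun b hb => by
            have : b ≠ j := fun e => hnot i (hS'sub i hi) (e ▸ hb)
            simp [this]
        by_cases hij : i = j
        · subst hij
          rw [update_self, samp_eq, update_self]
          simp only [ha]
          rw [hpast, pmean_congr hsame]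
        · simpa [hij] using hsame i (Finset.mem_erase.mpr ⟨hij, hi⟩)
      rw [step1, IH, ← integral_avgOne j (h := fun y => f y * dens G θ ε A S y)
        (hf.mul (continuous_dens A S))]
      refine integral_congr_ae (Filter.Eventually.of_forall fun y => ?_)
      simp only [avgOne, hg]
      rw [integral_invCdf (φ := fun t => f (update y j t)) (abs_eps_pmean_le hθ hε hε1 A S' j.1 y)
        (hf.comp (continuous_const.update j continuous_id)), ← integral_mul_const]
      refine integral_congr_ae (Filter.Eventually.of_forall fun t => ?_)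
      have hins : dens G θ ε A S (update y j t) =
          dens G θ ε A S' y + ε * (2 * (t : ℝ) - 1) * numer G θ ε A S' j.1 y := by
        have := Ev_lik_insert (G := G) (θ := θ) (ε := ε) A (Finset.notMem_erase j S)
          (fun _ => 1) y t
        simpa [dens, numer, Finset.insert_erase hj, hS'] using this
      simp only [hins, ha, pmean]
      field_simp [(dens_pos (G := G) hθ hε hε1 A S' y).ne']

end Law

end Vale.Agent.P161
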