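import Vale.Agent.P161.Compare

/-!
# Reading off the spin from many rounds
-/

namespace Vale.Agent.P161

open MeasureTheory unitInterval Function SimpleGraph

variable {V : Type*}

/-- Clip a real into `[-1, 1]`. -/
noncomputable def clipOne (x : ℝ) : ℝ := max (-1) (min x 1)

lemma clipOne_mem (x : ℝ) : -1 ≤ clipOne x ∧ clipOne x ≤ 1 :=
  ⟨le_max_left _ _, max_le (by norm_num) (min_le_right _ _)⟩

lemma clipOne_dist (x y : ℝ) : |clipOne x - clipOne y| ≤ |x - y| := by
  unfold clipOne
  refine (abs_max_sub_max_le_max _ _ _ _).trans ?_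
  rw [sub_self, abs_zero, max_eq_right (abs_nonneg _)]
  refine (abs_min_sub_min_le_max _ _ _ _).trans_eq ?_
  rw [sub_self, abs_zero, max_eq_left (abs_nonneg _)]

lemma clipOne_spin (b : Bool) : clipOne (spin b) = spin b := by
  cases b <;> simp [clipOne, spin]

lemma continuous_clipOne : Continuous clipOne := by unfold clipOne; fun_prop

/-- The clipped empirical mean over `K` rounds at `v`. -/
noncomputable def emp (ε : ℝ) (K : ℕ) (v : V) (y : V × ℕ → I) : ℝ :=
  clipOne (3 / (ε * K) * ∑ k ∈ Finset.range K, (2 * (y (v, k) : ℝ) - 1))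

lemma continuous_emp (ε : ℝ) (K : ℕ) (v : V) : Continuous (emp ε K v) := by
  unfold emp; exact continuous_clipOne.comp (by fun_prop)

lemma abs_emp_le (ε : ℝ) (K : ℕ) (v : V) (y : V × ℕ → I) : |emp ε K v y| ≤ 1 :=
  abs_le.mpr (clipOne_mem _)

lemma abs_emp_sub_le {ε : ℝ} (hε : 0 < ε) (K : ℕ) (v : V) (y y' : V × ℕ → I) :
    |emp ε K v y - emp ε K v y'| ≤
      6 / (ε * K) * ∑ k ∈ Finset.range K, |(y (v, k) : ℝ) - y' (v, k)| := by
  refine (clipOne_dist _ _).trans ?_
  rw [← mul_sub, ← Finset.sum_sub_distrib, abs_mul, abs_of_nonneg (by positivity),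
    show 6 / (ε * K) * ∑ k ∈ Finset.range K, |(y (v, k) : ℝ) - y' (v, k)| =
      3 / (ε * K) * (2 * ∑ k ∈ Finset.range K, |(y (v, k) : ℝ) - y' (v, k)|) by ring,
    Finset.mul_sum]
  refine mul_le_mul_of_nonneg_left ((Finset.abs_sum_le_sum_abs _ _).trans
    (Finset.sum_le_sum fun k _ => ?_)) (by positivity)
  rw [show 2 * (y (v, k) : ℝ) - 1 - (2 * (y' (v, k) : ℝ) - 1) =
    2 * ((y (v, k) : ℝ) - y' (v, k)) by ring, abs_mul, abs_two]

lemma integral_poly3 (a b c e : ℝ) :
    ∫ t : I, (a + b * (t : ℝ) + c * (t : ℝ) ^ 2 + e * (t : ℝ) ^ 3) =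
      a + b / 2 + c / 3 + e / 4 := by
  rw [integral_unitInterval, intervalIntegral.integral_congr
    (g := fun x => a + b * x + c * x ^ 2 + e * x ^ 3) (fun x hx => ?_)]
  · rw [intervalIntegral.integral_add (Continuous.intervalIntegrable (by fun_prop) _ _)
        (Continuous.intervalIntegrable (by fun_prop) _ _),
      intervalIntegral.integral_add (Continuous.intervalIntegrable (by fun_prop) _ _)
        (Continuous.intervalIntegrable (by fun_prop) _ _),
      intervalIntegral.integral_add intervalIntegrable_const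
        (Continuous.intervalIntegrable (by fun_prop) _ _),
      intervalIntegral.integral_const, intervalIntegral.integral_const_mul,
      intervalIntegral.integral_const_mul, intervalIntegral.integral_const_mul,
      integral_id, integral_pow, integral_pow]
    norm_num; ring
  · rw [Set.uIcc_of_le zero_le_one] at hx
    simp [Set.projIcc_of_mem _ hx]

variable [Countable V] [DecidableEq V]

/-- Factors of observations outside the support integrate out, for a fixed configuration. -/
lemma integral_lik_marginal (ε : ℝ) (η : V → Bool) {S S' : Finset (V × ℕ)} (hS : S ⊆ S')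
    {f : (V × ℕ → I) → ℝ} (hf : Continuous f) (hd : DependsOn f (S : Set _)) :
    ∫ y, f y * lik ε S' η (rv y) ∂iidLabels (V × ℕ) =
      ∫ y, f y * lik ε S η (rv y) ∂iidLabels (V × ℕ) := by
  suffices ∀ T, Disjoint S T →
      ∫ y, f y * lik ε (T ∪ S) η (rv y) ∂iidLabels (V × ℕ) =
        ∫ y, f y * lik ε S η (rv y) ∂iidLabels (V × ℕ) by
    have := this (S' \ S) Finset.disjoint_sdiff
    rwa [Finset.sdiff_union_of_subset hS] at this
  intro T hT
  induction T using Finset.induction_on with
  | empty => simp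
  | @insert j T hj ih =>
    rw [Finset.disjoint_insert_right] at hT
    rw [← ih hT.2, ← integral_avgOne j (h := fun y => f y * lik ε (insert j T ∪ S) η (rv y))
      (hf.mul (continuous_lik _ η))]
    refine integral_congr_ae (Filter.Eventually.of_forall fun y => ?_)
    have hj' : j ∉ T ∪ S := by simp [hj, hT.1]
    have e : ∀ t, f (update y j t) = f y := fun t => hd fun i hi => by
      simp [show i ≠ j from fun e => hT.1 (e ▸ hi)]
    have e2 : ∀ t : I, lik ε (insert j T ∪ S) η (rv (update y j t)) =
        lik ε (T ∪ S) η (rv y) * (1 + ε * spin (η j.1) * (2 * (t : ℝ) - 1)) := fun t => by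
      have : lik ε (T ∪ S) η (rv (update y j t)) = lik ε (T ∪ S) η (rv y) :=
        lik_congr_obs (fun i hi => by simp [show i ≠ j from fun e => hj' (e ▸ hi)]) η
      rw [Finset.insert_union]
      simp only [lik] at this ⊢
      rw [Finset.prod_insert hj', this]
      simp only [rv, update_self]
      ring
    simp only [avgOne, e, e2]
    rw [show (fun t : I => f y * (lik ε (T ∪ S) η (rv y) *
          (1 + ε * spin (η j.1) * (2 * (t : ℝ) - 1)))) = fun t : I =>
        f y * lik ε (T ∪ S) η (rv y) * (1 - ε * spin (η j.1)) +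
          f y * lik ε (T ∪ S) η (rv y) * (2 * ε * spin (η j.1)) * (t : ℝ) + 0 * (t : ℝ) ^ 2 +
          0 * (t : ℝ) ^ 3 from funext fun t => by ring, integral_poly3]
    ring

/-- Second moment of the centred sum. -/
lemma integral_sq_sum_le {ε : ℝ} (hε : 0 ≤ ε) (hε1 : ε ≤ 1 / 4) (η : V → Bool) :
    ∀ T : Finset (V × ℕ),
      ∫ y, (∑ i ∈ T, ((2 * (y i : ℝ) - 1) - ε * spin (η i.1) / 3)) ^ 2 *
          lik ε T η (rv y) ∂iidLabels (V × ℕ) ≤ 4 * T.card := by
  intro T
  induction T using Finset.induction_on with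
  | empty => simp
  | @insert j T hj ih =>
    set Zs : (V × ℕ → I) → ℝ := fun y => ∑ i ∈ T, ((2 * (y i : ℝ) - 1) - ε * spin (η i.1) / 3)
      with hZs
    have hZsc : Continuous Zs := by rw [hZs]; fun_prop
    have hLc := continuous_lik (ε := ε) T η
    set c : ℝ := ε * spin (η j.1) with hc
    have key : ∀ y, avgOne j (fun y => (∑ i ∈ insert j T,
        ((2 * (y i : ℝ) - 1) - ε * spin (η i.1) / 3)) ^ 2 * lik ε (insert j T) η (rv y)) y =
        Zs y ^ 2 * lik ε T η (rv y) + (1 / 3 - c ^ 2 / 9) * lik ε T η (rv y) := by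
      intro y
      have e : ∀ t : I, Zs (update y j t) = Zs y := fun t =>
        Finset.sum_congr rfl fun i hi => by simp [show i ≠ j from fun e => hj (e ▸ hi)]
      have e2 : ∀ t : I, lik ε (insert j T) η (rv (update y j t)) =
          lik ε T η (rv y) * (1 + c * (2 * (t : ℝ) - 1)) := fun t => by
        have : lik ε T η (rv (update y j t)) = lik ε T η (rv y) :=
          lik_congr_obs (fun i hi => by simp [show i ≠ j from fun e => hj (e ▸ hi)]) η
        simp only [lik] at this ⊢
        rw [Finset.prod_insert hj, this]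
        simp only [rv, update_self, hc]
        ring
      simp only [avgOne, e2, Finset.sum_insert hj, update_self]
      simp only [hZs] at e
      simp only [e]
      rw [show (fun t : I => ((2 * (t : ℝ) - 1 - ε * spin (η j.1) / 3) +
            ∑ i ∈ T, (2 * (y i : ℝ) - 1 - ε * spin (η i.1) / 3)) ^ 2 *
            (lik ε T η (rv y) * (1 + c * (2 * (t : ℝ) - 1)))) = fun t : I =>
          lik ε T η (rv y) * ((Zs y - 1 - c / 3) ^ 2 * (1 - c)) +
          lik ε T η (rv y) * ((Zs y - 1 - c / 3) ^ 2 * (2 * c) +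
            4 * (Zs y - 1 - c / 3) * (1 - c)) * (t : ℝ) +
          lik ε T η (rv y) * (4 * (1 - c) + 8 * c * (Zs y - 1 - c / 3)) * (t : ℝ) ^ 2 +
          lik ε T η (rv y) * (8 * c) * (t : ℝ) ^ 3 from funext fun t => by
            simp only [hZs, hc]; ring, integral_poly3]
      ring
    rw [← integral_avgOne j (by fun_prop [lik, rv]), integral_congr_ae
      (Filter.Eventually.of_forall key), integral_add
      (integrable_of_continuous (h := fun y => Zs y ^ 2 * lik ε T η (rv y)) ((hZsc.pow 2).mul hLc))
      ((integrable_of_continuous hLc).const_mul _), integral_const_mul]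
    have h1 : ∫ y, lik ε T η (rv y) ∂iidLabels (V × ℕ) = 1 := by
      have := integral_lik_marginal ε η (Finset.empty_subset T) (f := fun _ => 1)
        continuous_const (fun _ _ _ => rfl)
      simpa [lik] using this
    rw [h1, Finset.card_insert_of_notMem hj]
    push_cast
    have hc2 : 0 ≤ c ^ 2 := sq_nonneg c
    linarith

/-- The empirical mean is close to the spin. -/
lemma integral_emp_err {ε : ℝ} (hε : 0 < ε) (hε1 : ε ≤ 1 / 4) (η : V → Bool) {K : ℕ} (hK : 0 < K)
    (v : V) {S : Finset (V × ℕ)} (hS : ∀ k < K, (v, k) ∈ S) {δ : ℝ} (hδ : 0 < δ) :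
    ∫ y, |emp ε K v y - spin (η v)| * lik ε S η (rv y) ∂iidLabels (V × ℕ) ≤
      δ / 2 + 18 / (ε ^ 2 * K * δ) := by
  classical
  set T := (Finset.range K).image (fun k => (v, k)) with hT
  have hTS : T ⊆ S := by
    intro i hi
    simp only [hT, Finset.mem_image, Finset.mem_range] at hi
    obtain ⟨k, hk, rfl⟩ := hi
    exact hS k hk
  have hinj : Set.InjOn (fun k : ℕ => (v, k)) (Finset.range K : Set ℕ) := fun a _ b _ h =>
    congrArg Prod.snd h
  have hTc : T.card = K := by rw [hT, Finset.card_image_of_injOn hinj, Finset.card_range]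
  have hd : DependsOn (fun y => |emp ε K v y - spin (η v)|) (T : Set _) := fun y y' h => by
    have : ∀ k ∈ Finset.range K, y (v, k) = y' (v, k) := fun k hk => h _ (by
      simp only [hT, Finset.mem_coe, Finset.mem_image]; exact ⟨k, hk, rfl⟩)
    simp only [emp]
    rw [Finset.sum_congr rfl fun k hk => by rw [this k hk]]
  have hec := ((continuous_emp ε K v).sub (continuous_const (y := spin (η v)))).abs
  rw [integral_lik_marginal ε η hTS (f := fun y => |emp ε K v y - spin (η v)|) hec hd]
  set Z : (V × ℕ → I) → ℝ := fun y => ∑ i ∈ T, ((2 * (y i : ℝ) - 1) - ε * spin (η i.1) / 3)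
    with hZ
  have hZc : Continuous Z := by rw [hZ]; fun_prop
  have hLc := continuous_lik (ε := ε) T η
  have hK0 : (0 : ℝ) < K := by exact_mod_cast hK
  have hb : ∀ y, |emp ε K v y - spin (η v)| * lik ε T η (rv y) ≤
      δ / 2 * lik ε T η (rv y) + 9 / (ε ^ 2 * K ^ 2 * (2 * δ)) * (Z y ^ 2 * lik ε T η (rv y)) := by
    intro y
    have e : 3 / (ε * K) * ∑ k ∈ Finset.range K, (2 * (y (v, k) : ℝ) - 1) - spin (η v) =
        3 / (ε * K) * Z y := by
      simp only [hZ, hT]
      rw [Finset.sum_image hinj]
      simp only [Finset.sum_sub_distrib, Finset.sum_const, Finset.card_range, nsmul_eq_mul]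
      field_simp
    have : |emp ε K v y - spin (η v)| ≤ δ / 2 + (3 / (ε * K) * Z y) ^ 2 / (2 * δ) := by
      refine le_trans ?_ (Params.abs_le_amgm hδ _)
      rw [← e]
      conv_lhs => rw [emp, ← clipOne_spin (η v)]
      exact clipOne_dist _ _
    refine (mul_le_mul_of_nonneg_right this
      (lik_pos hε.le (by linarith) (rv_mem y) η).le).trans_eq ?_
    field_simp; ring
  refine (integral_le_integral
    (g := fun y => δ / 2 * lik ε T η (rv y) +
      9 / (ε ^ 2 * K ^ 2 * (2 * δ)) * (Z y ^ 2 * lik ε T η (rv y))) (hec.mul hLc)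
    ((continuous_const.mul hLc).add (continuous_const.mul ((hZc.pow 2).mul hLc))) hb).trans ?_
  rw [integral_add ((integrable_of_continuous hLc).const_mul _)
    ((integrable_of_continuous (h := fun y => Z y ^ 2 * lik ε T η (rv y))
      ((hZc.pow 2).mul hLc)).const_mul _), integral_const_mul, integral_const_mul]
  have h1 : ∫ y, lik ε T η (rv y) ∂iidLabels (V × ℕ) = 1 := by
    have := integral_lik_marginal ε η (Finset.empty_subset T) (f := fun _ => 1)
      continuous_const (fun _ _ _ => rfl)
    simpa [lik] using this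
  have h2 : ∫ y, Z y ^ 2 * lik ε T η (rv y) ∂iidLabels (V × ℕ) ≤ 4 * (K : ℝ) :=
    (integral_sq_sum_le hε.le hε1 η T).trans_eq (by rw [hTc])
  rw [h1, mul_one]
  refine add_le_add le_rfl ((mul_le_mul_of_nonneg_left h2 (by positivity)).trans_eq ?_)
  field_simp; ring

/-- The value `1` on configurations agreeing with `η` on `D`, as a product. -/
noncomputable def match' (D : Finset V) (η : V → Bool) (x : V → ℝ) : ℝ :=
  ∏ v ∈ D, (1 + spin (η v) * x v) / 2

omit [Countable V] in
lemma match'_range (D : Finset V) (η : V → Bool) {x : V → ℝ} (hx : ∀ v, |x v| ≤ 1) :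
    0 ≤ match' D η x ∧ match' D η x ≤ 1 := by
  have h : ∀ v, 0 ≤ (1 + spin (η v) * x v) / 2 ∧ (1 + spin (η v) * x v) / 2 ≤ 1 := fun v => by
    obtain ⟨a, b⟩ := abs_le.mp (hx v)
    rcases spin_cases (η v) with e | e <;> rw [e] <;> constructor <;> linarith
  exact ⟨Finset.prod_nonneg fun v _ => (h v).1,
    Finset.prod_le_one (fun v _ => (h v).1) fun v _ => (h v).2⟩

omit [Countable V] in
lemma match'_sub (D : Finset V) (η : V → Bool) {x z : V → ℝ} (hx : ∀ v, |x v| ≤ 1)
    (hz : ∀ v, |z v| ≤ 1) : |match' D η x - match' D η z| ≤ ∑ v ∈ D, |x v - z v| / 2 := by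
  induction D using Finset.induction_on with
  | empty => simp [match']
  | @insert a D ha ih =>
    rw [Finset.sum_insert ha]
    simp only [match', Finset.prod_insert ha] at ih ⊢
    obtain ⟨p0, p1⟩ := match'_range D η hx
    simp only [match'] at p0 p1
    set P := ∏ v ∈ D, (1 + spin (η v) * x v) / 2
    set R := ∏ v ∈ D, (1 + spin (η v) * z v) / 2
    obtain ⟨a1, a2⟩ := abs_le.mp (hz a)
    have q : |(1 + spin (η a) * z a) / 2| ≤ 1 := by
      rcases spin_cases (η a) with e | e <;> rw [e] <;> rw [abs_le] <;> constructor <;> linarith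
    calc |(1 + spin (η a) * x a) / 2 * P - (1 + spin (η a) * z a) / 2 * R|
        = |spin (η a) * ((x a - z a) / 2) * P + (1 + spin (η a) * z a) / 2 * (P - R)| := by
          congr 1; ring
      _ ≤ |spin (η a) * ((x a - z a) / 2) * P| + |(1 + spin (η a) * z a) / 2 * (P - R)| :=
          abs_add_le _ _
      _ ≤ |x a - z a| / 2 + ∑ v ∈ D, |x v - z v| / 2 := by
          refine add_le_add ?_ ?_
          · rw [abs_mul, abs_mul, abs_spin, one_mul, abs_div, abs_two, abs_of_nonneg p0]
            exact mul_le_of_le_one_right (by positivity) p1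
          · rw [abs_mul]
            exact (mul_le_of_le_one_left (abs_nonneg _) q).trans ih

namespace Params

variable {G : SimpleGraph V} (p : Params G)

/-- A law of the sampler as an average over configurations. -/
lemma integral_smp_mix {A : Finset V} (hA : Convex' G A) (hne : A.Nonempty) {ρ : V → I}
    (hρ : Set.InjOn ρ A) {S : Finset (V × ℕ)} (hS : ∀ j ∈ S, j.1 ∈ A)
    {f : (V × ℕ → I) → ℝ} (hf : Continuous f) (hd : DependsOn f (S : Set _)) :
    ∫ u, f (p.smp A ρ u) ∂iidLabels (V × ℕ) =
      Ev G p.θ A fun η => ∫ y, f y * lik p.ε S η (rv y) ∂iidLabels (V × ℕ) := by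
  rw [p.integral_smp hA hne hρ hS hf hd]
  simp only [dens, Ev, Finset.mul_sum]
  rw [integral_finsetSum _ fun s _ => integrable_of_continuous
    (h := fun y => f y * (prior G p.θ A (cfg s) * lik p.ε S (cfg s) (rv y)))
    (hf.mul (continuous_const.mul (continuous_lik S _)))]
  refine Finset.sum_congr rfl fun s _ => ?_
  rw [← integral_const_mul]
  exact integral_congr_ae (Filter.Eventually.of_forall fun y => by ring)

omit [Countable V] [DecidableEq V] in
lemma Ev_le_const {A : Finset V} (hA : Convex' G A) (hne : A.Nonempty) {f : (V → Bool) → ℝ}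
    {c : ℝ} (h : ∀ η, f η ≤ c) : Ev G p.θ A f ≤ c := by
  refine (Ev_mono p.abs_θ h).trans_eq ?_
  rw [Ev_congr (g := fun η => c * (fun _ => (1 : ℝ)) η) (fun η => (mul_one c).symm), Ev_const_mul,
    Ev_one p.hG hA hne, mul_one]

omit [Countable V] in
lemma dependsOn_emp (ε : ℝ) (K : ℕ) (v : V) :
    DependsOn (emp ε K v) ((({v} : Finset V) ×ˢ Finset.range K : Finset (V × ℕ)) : Set _) :=
  fun y y' h => by
    simp only [emp]
    rw [Finset.sum_congr rfl fun k hk => by
      rw [h (v, k) (by simpa using Finset.mem_range.mp hk)]]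

/-- Two numbers of rounds give nearly the same reading. -/
lemma integral_emp_sub_le {A : Finset V} (hA : Convex' G A) {ρ : V → I} (hρ : Set.InjOn ρ A)
    {v : V} (hv : v ∈ A) {K K' : ℕ} (hK : 0 < K) (hK' : 0 < K') {δ : ℝ} (hδ : 0 < δ) :
    ∫ u, |emp p.ε K v (p.smp A ρ u) - emp p.ε K' v (p.smp A ρ u)| ∂iidLabels (V × ℕ) ≤
      δ + 18 / (p.ε ^ 2 * K * δ) + 18 / (p.ε ^ 2 * K' * δ) := by
  set S : Finset (V × ℕ) := ({v} : Finset V) ×ˢ Finset.range (max K K') with hS
  have hS1 : ∀ k < K, (v, k) ∈ S := fun k hk => by simp [hS, hk]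
  have hS2 : ∀ k < K', (v, k) ∈ S := fun k hk => by simp [hS, hk]
  have c1 := continuous_emp p.ε K v
  have c2 := continuous_emp p.ε K' v
  rw [p.integral_smp_mix hA ⟨v, hv⟩ hρ (S := S)
    (fun j hj => by
      rw [hS, Finset.mem_product, Finset.mem_singleton] at hj
      rw [hj.1]; exact hv)
    (f := fun y => |emp p.ε K v y - emp p.ε K' v y|) (c1.sub c2).abs
    (fun y y' h => by
      simp only
      rw [dependsOn_emp p.ε K v (fun i hi => h i (Finset.product_subset_product_right
          (Finset.range_subset_range.mpr (le_max_left _ _)) hi)),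
        dependsOn_emp p.ε K' v (fun i hi => h i (Finset.product_subset_product_right
          (Finset.range_subset_range.mpr (le_max_right _ _)) hi))])]
  refine p.Ev_le_const hA ⟨v, hv⟩ fun η => ?_
  have d1 := (c1.sub (continuous_const (y := spin (η v)))).abs
  have d2 := (c2.sub (continuous_const (y := spin (η v)))).abs
  have hL := continuous_lik (ε := p.ε) S η
  refine (integral_le_integral (g := fun y => |emp p.ε K v y - spin (η v)| * lik p.ε S η (rv y) +
      |emp p.ε K' v y - spin (η v)| * lik p.ε S η (rv y)) ((c1.sub c2).abs.mul hL)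
      ((d1.mul hL).add (d2.mul hL)) fun y => ?_).trans ?_
  · rw [← add_mul]
    refine mul_le_mul_of_nonneg_right ?_ (lik_pos p.ε_pos.le
      (by linarith [p.ε_le]) (rv_mem y) η).le
    rw [abs_sub_comm (emp p.ε K' v y) (spin (η v))]
    exact abs_sub_le _ _ _
  · rw [integral_add (integrable_of_continuous (h := fun y =>
        |emp p.ε K v y - spin (η v)| * lik p.ε S η (rv y)) (d1.mul hL))
      (integrable_of_continuous (h := fun y =>
        |emp p.ε K' v y - spin (η v)| * lik p.ε S η (rv y)) (d2.mul hL))]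
    refine (add_le_add (integral_emp_err p.ε_pos p.ε_le η hK v hS1 hδ)
      (integral_emp_err p.ε_pos p.ε_le η hK' v hS2 hδ)).trans_eq ?_
    ring

/-- The reading is nearly a spin. -/
lemma integral_one_sub_sq_le {A : Finset V} (hA : Convex' G A) {ρ : V → I} (hρ : Set.InjOn ρ A)
    {v : V} (hv : v ∈ A) {K : ℕ} (hK : 0 < K) {δ : ℝ} (hδ : 0 < δ) :
    ∫ u, (1 - emp p.ε K v (p.smp A ρ u) ^ 2) ∂iidLabels (V × ℕ) ≤
      δ + 36 / (p.ε ^ 2 * K * δ) := by
  set S : Finset (V × ℕ) := ({v} : Finset V) ×ˢ Finset.range K with hS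
  have hS1 : ∀ k < K, (v, k) ∈ S := fun k hk => by simp [hS, hk]
  have c1 := continuous_emp p.ε K v
  rw [p.integral_smp_mix hA ⟨v, hv⟩ hρ (S := S)
    (fun j hj => by
      rw [hS, Finset.mem_product, Finset.mem_singleton] at hj
      rw [hj.1]; exact hv)
    (f := fun y => 1 - emp p.ε K v y ^ 2) (continuous_const.sub (c1.pow 2))
    (fun y y' h => by simp only; rw [dependsOn_emp p.ε K v h])]
  refine p.Ev_le_const hA ⟨v, hv⟩ fun η => ?_
  have d1 := (c1.sub (continuous_const (y := spin (η v)))).abs
  have hL := continuous_lik (ε := p.ε) S η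
  refine (integral_le_integral (g := fun y => 2 * (|emp p.ε K v y - spin (η v)| *
      lik p.ε S η (rv y))) ((continuous_const.sub (c1.pow 2)).mul hL)
      (continuous_const.mul (d1.mul hL)) fun y => ?_).trans ?_
  · rw [← mul_assoc]
    refine mul_le_mul_of_nonneg_right ?_ (lik_pos p.ε_pos.le
      (by linarith [p.ε_le]) (rv_mem y) η).le
    obtain ⟨a, b⟩ := abs_le.mp (abs_emp_le p.ε K v y)
    rcases spin_cases (η v) with e | e <;> rw [e]
    · have := neg_le_abs (emp p.ε K v y - 1); simp only [Pi.sub_apply, Pi.pow_apply]; nlinarith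
    · have := le_abs_self (emp p.ε K v y - -1); simp only [Pi.sub_apply, Pi.pow_apply]; nlinarith
  · rw [integral_const_mul]
    exact (mul_le_mul_of_nonneg_left (integral_emp_err p.ε_pos p.ε_le η hK v hS1 hδ)
      zero_le_two).trans_eq (by ring)

/-- The readings on `D` have nearly the Ising law. -/
lemma integral_match_sub_le {A D : Finset V} (hA : Convex' G A) (hD : Convex' G D)
    (hDne : D.Nonempty) (hDA : D ⊆ A) {ρ : V → I} (hρ : Set.InjOn ρ A) (η₀ : V → Bool) {K : ℕ}
    (hK : 0 < K) {δ : ℝ} (hδ : 0 < δ) :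
    |(∫ u, match' D η₀ (fun v => emp p.ε K v (p.smp A ρ u)) ∂iidLabels (V × ℕ)) -
        prior G p.θ D η₀| ≤ D.card * ((δ / 2 + 18 / (p.ε ^ 2 * K * δ)) / 2) := by
  classical
  have hAne : A.Nonempty := hDne.mono hDA
  set S : Finset (V × ℕ) := D ×ˢ Finset.range K with hS
  set f : (V × ℕ → I) → ℝ := fun y => match' D η₀ (fun v => emp p.ε K v y) with hf
  have hfc : Continuous f := by
    simp only [f, match']
    exact continuous_finsetProd _ fun v _ =>
      ((continuous_const.add (continuous_const.mul (continuous_emp p.ε K v))).div_const _)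
  have hfd : DependsOn f (S : Set _) := fun y y' h => by
    refine Finset.prod_congr rfl fun v hv => ?_
    simp only
    rw [dependsOn_emp p.ε K v fun i hi => h i (Finset.product_subset_product_left
      (Finset.singleton_subset_iff.mpr hv) hi)]
  rw [p.integral_smp_mix hA hAne hρ (S := S)
    (fun j hj => hDA (Finset.mem_product.mp hj).1) hfc hfd]
  have hprior : prior G p.θ D η₀ = Ev G p.θ A fun η => match' D η₀ (fun v => spin (η v)) := by
    rw [Ev_mono_set p.hG hD hA hDne hDA (fun η => match' D η₀ fun v => spin (η v)) (fun η η' he =>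
      Finset.prod_congr rfl fun v hv => by simp only [he v hv]), Ev,
      Finset.sum_eq_single (D.filter fun v => η₀ v = true)]
    · have e : ∀ v ∈ D, cfg (D.filter fun v => η₀ v = true) v = η₀ v := fun v hv => by
        cases h : η₀ v <;> simp [cfg, hv, h]
      rw [prior_congr e, show match' D η₀ (fun v => spin (cfg (D.filter fun v => η₀ v = true) v)) = 1
        from Finset.prod_eq_one fun v hv => by simp only [e v hv, spin_mul_self]; norm_num, mul_one]
    · intro s hs hne
      rw [Finset.mem_powerset] at hs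
      obtain ⟨v, hv⟩ : ∃ v ∈ D, cfg s v ≠ η₀ v := by
        by_contra hall
        push Not at hall
        refine hne (Finset.ext fun v => ?_)
        constructor
        · intro hvs
          exact Finset.mem_filter.mpr ⟨hs hvs, by simpa [cfg, hvs] using (hall v (hs hvs)).symm⟩
        · intro hv
          rw [Finset.mem_filter] at hv
          have := hall v hv.1
          simpa [cfg, hv.2] using this
      rw [show match' D η₀ (fun v => spin (cfg s v)) = 0 from Finset.prod_eq_zero hv.1 (by
        rcases hh : η₀ v <;> rcases hh' : cfg s v <;> simp_all [spin]), mul_zero]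
    · intro h; exact absurd (Finset.mem_powerset.mpr (Finset.filter_subset _ _)) h
  have hone : ∀ η, ∫ y, lik p.ε S η (rv y) ∂iidLabels (V × ℕ) = 1 := fun η => by
    have := integral_lik_marginal p.ε η (Finset.empty_subset S) (f := fun _ => 1)
      continuous_const (fun _ _ _ => rfl)
    simpa [lik] using this
  have diff : ∀ η, |(∫ y, f y * lik p.ε S η (rv y) ∂iidLabels (V × ℕ)) -
      match' D η₀ (fun v => spin (η v))| ≤ D.card * ((δ / 2 + 18 / (p.ε ^ 2 * K * δ)) / 2) := by
    intro η
    have hL := continuous_lik (ε := p.ε) S η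
    set m := match' D η₀ (fun v => spin (η v))
    have e : (∫ y, f y * lik p.ε S η (rv y) ∂iidLabels (V × ℕ)) - m =
        ∫ y, (f y - m) * lik p.ε S η (rv y) ∂iidLabels (V × ℕ) := by
      simp only [sub_mul]
      rw [integral_sub (integrable_of_continuous (h := fun y => f y * lik p.ε S η (rv y))
        (hfc.mul hL)) ((integrable_of_continuous hL).const_mul _), integral_const_mul, hone,
        mul_one]
    have d1 : ∀ v, Continuous fun y => |emp p.ε K v y - spin (η v)| * lik p.ε S η (rv y) :=
      fun v => ((continuous_emp p.ε K v).sub continuous_const).abs.mul hL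
    rw [e]
    refine (abs_integral_le_integral_abs).trans ?_
    refine (integral_le_integral (g := fun y => ∑ v ∈ D, (1 / 2) *
      (|emp p.ε K v y - spin (η v)| * lik p.ε S η (rv y))) ((hfc.sub continuous_const).mul hL).abs
      (continuous_finsetSum _ fun v _ => continuous_const.mul (d1 v)) fun y => ?_).trans ?_
    · have hl := (lik_pos p.ε_pos.le (by linarith [p.ε_le]) (rv_mem y) η (S := S)).le
      simp only [Pi.mul_apply, Pi.sub_apply, f, m]
      rw [abs_mul, abs_of_nonneg hl]
      refine (mul_le_mul_of_nonneg_right (match'_sub D η₀ (fun v => abs_emp_le p.ε K v y)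
        (fun v => (abs_spin _).le)) hl).trans_eq ?_
      rw [Finset.sum_mul]
      exact Finset.sum_congr rfl fun v _ => by ring
    · rw [integral_finsetSum _ fun v _ => (integrable_of_continuous (d1 v)).const_mul _]
      refine (Finset.sum_le_card_nsmul _ _ ((δ / 2 + 18 / (p.ε ^ 2 * K * δ)) / 2)
        fun v hv => ?_).trans_eq (by rw [nsmul_eq_mul])
      rw [integral_const_mul]
      have := integral_emp_err p.ε_pos p.ε_le η hK v (S := S)
        (fun k hk => Finset.mem_product.mpr ⟨hv, Finset.mem_range.mpr hk⟩) hδ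
      linarith
  rw [hprior]
  set g1 := fun η => ∫ y, f y * lik p.ε S η (rv y) ∂iidLabels (V × ℕ)
  set g2 : (V → Bool) → ℝ := fun η => match' D η₀ (fun v => spin (η v))
  rw [show Ev G p.θ A g1 - Ev G p.θ A g2 = Ev G p.θ A (fun η => g1 η - g2 η) by
    simp only [Ev, mul_sub, Finset.sum_sub_distrib]]
  exact (abs_Ev_le p.abs_θ _).trans (p.Ev_le_const hA hAne diff)

end Params

end Vale.Agent.P161
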