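import Vale.Agent.P161.Sampler

/-!
# Locality of the sampler and comparison of two subtrees
-/

namespace Vale.Agent.P161

open MeasureTheory unitInterval Function SimpleGraph

variable {V : Type*}

/-- The numerical parameters and what is used about them. -/
structure Params (G : SimpleGraph V) where
  θ : ℝ
  ε : ℝ
  lam : ℝ
  C : ℝ
  tail : ℕ → ℝ
  hG : G.IsTree
  θ_nonneg : 0 ≤ θ
  θ_lt : θ < 1
  ε_pos : 0 < ε
  ε_le : ε ≤ 1 / 4
  lam_nonneg : 0 ≤ lam
  C_nonneg : 0 ≤ C
  εC : 32 * ε ^ 2 * C ≤ 1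
  conv : ∀ (U : Finset V) (v w : V),
    ∑ u ∈ U, θ ^ G.dist v u * lam ^ G.dist u w ≤ C * lam ^ G.dist v w
  tail_bound : ∀ (U : Finset V) (v : V) (n : ℕ), (∀ u ∈ U, n < G.dist v u) →
    ∑ u ∈ U, (lam ^ G.dist v u) ^ 2 ≤ tail n
  tail_tendsto : Filter.Tendsto tail Filter.atTop (nhds 0)

namespace Params

variable {G : SimpleGraph V} (p : Params G)

lemma abs_θ : |p.θ| < 1 := by rw [abs_of_nonneg p.θ_nonneg]; exact p.θ_lt

/-- The sampler for the parameters. -/
noncomputable abbrev smp (A : Finset V) (ρ : V → I) (u : V × ℕ → I) : V × ℕ → I :=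
  samp G p.θ p.ε A ρ u

/-- The posterior mean used at step `j`. -/
noncomputable abbrev mn (A : Finset V) (ρ : V → I) (j : V × ℕ) (y : V × ℕ → I) : ℝ :=
  pmean G p.θ p.ε A (past A ρ j) j.1 y

lemma continuous_smp (A : Finset V) (ρ : V → I) : Continuous (p.smp A ρ) :=
  continuous_samp p.abs_θ p.ε_pos.le p.ε_le A ρ

lemma continuous_mn (A : Finset V) (ρ : V → I) (j : V × ℕ) : Continuous (p.mn A ρ j) :=
  continuous_pmean p.abs_θ p.ε_pos.le p.ε_le A _ _

lemma abs_mn_le (A : Finset V) (ρ : V → I) (j : V × ℕ) (y : V × ℕ → I) : |p.mn A ρ j y| ≤ 1 :=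
  abs_pmean_le p.abs_θ p.ε_pos.le p.ε_le A _ _ y

lemma sum_four_pow (k : ℕ) : ∑ l ∈ Finset.range (k + 1), (4 : ℝ) ^ l ≤ 2 * 4 ^ k := by
  induction k with
  | zero => norm_num
  | succ k ih =>
    rw [Finset.sum_range_succ, pow_succ]
    nlinarith [pow_pos (by norm_num : (0 : ℝ) < 4) k]

/-- The effect of one input on one output, uniformly in the subtree and in the order. -/
lemma samp_lipschitz [DecidableEq V] {A : Finset V} (hA : Convex' G A) (ρ : V → I) (i : V × ℕ) (a b : I)
    (u : V × ℕ → I) : ∀ j : V × ℕ, j.1 ∈ A →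
    |(p.smp A ρ (update u i a) j : ℝ) - p.smp A ρ (update u i b) j| ≤
      4 * 4 ^ j.2 * p.lam ^ G.dist j.1 i.1 * |(a : ℝ) - b| := by
  intro j
  induction j using past_induction (A := A) (ρ := ρ) with
  | h j ih =>
    intro hj
    set y := p.smp A ρ (update u i a)
    set y' := p.smp A ρ (update u i b)
    set W := p.lam ^ G.dist j.1 i.1
    set D := |(a : ℝ) - b|
    have hW : 0 ≤ W := pow_nonneg p.lam_nonneg _
    have hD : 0 ≤ D := abs_nonneg _
    have h4 : (1 : ℝ) ≤ 4 ^ j.2 := one_le_pow₀ (by norm_num)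
    simp only [y, y', smp] at *
    rw [samp_eq A ρ (update u i a) j, samp_eq A ρ (update u i b) j]
    refine (invCdf_dist _ _ _ _).trans ?_
    have h1 : |((update u i a j : I) : ℝ) - (update u i b j : I)| ≤ 4 ^ j.2 * W * D := by
      by_cases hji : j = i
      · subst hji
        simp only [update_self, W, dist_self, pow_zero, mul_one]
        exact le_mul_of_one_le_left hD h4
      · simp only [update_of_ne hji, sub_self, abs_zero]
        positivity
    have h2 : |pmean G p.θ p.ε A (past A ρ j) j.1 (samp G p.θ p.ε A ρ (update u i a)) -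
        pmean G p.θ p.ε A (past A ρ j) j.1 (samp G p.θ p.ε A ρ (update u i b))| ≤
          32 * p.ε * p.C * 4 ^ j.2 * W * D := by
      refine (mean_lipschitz p.hG p.θ_nonneg p.θ_lt p.ε_pos.le p.ε_le hA
        (fun k hk => (mem_past.mp hk).1) hj (rv_mem _) (rv_mem _)).trans ?_
      calc ∑ k ∈ past A ρ j, 4 * p.ε * p.θ ^ G.dist j.1 k.1 *
            |rv (samp G p.θ p.ε A ρ (update u i a)) k - rv (samp G p.θ p.ε A ρ (update u i b)) k|
          ≤ ∑ k ∈ past A ρ j, 4 * p.ε * p.θ ^ G.dist j.1 k.1 *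
              (4 * 4 ^ k.2 * p.lam ^ G.dist k.1 i.1 * D) := by
            refine Finset.sum_le_sum fun k hk => mul_le_mul_of_nonneg_left
              (ih k hk (mem_past.mp hk).1) ?_
            have := p.θ_nonneg; have := p.ε_pos; positivity
        _ ≤ ∑ k ∈ A ×ˢ Finset.range (j.2 + 1), 4 * p.ε * p.θ ^ G.dist j.1 k.1 *
              (4 * 4 ^ k.2 * p.lam ^ G.dist k.1 i.1 * D) := by
            refine Finset.sum_le_sum_of_subset_of_nonneg (fun k hk => ?_) fun k _ _ => ?_
            · obtain ⟨h1, h2⟩ := mem_past.mp hk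
              exact Finset.mem_product.mpr ⟨h1, Finset.mem_range.mpr (Nat.lt_succ_of_le h2.le)⟩
            · have := p.θ_nonneg; have := p.ε_pos; have := p.lam_nonneg; positivity
        _ = 16 * p.ε * D * ((∑ w ∈ A, p.θ ^ G.dist j.1 w * p.lam ^ G.dist w i.1) *
              ∑ l ∈ Finset.range (j.2 + 1), (4 : ℝ) ^ l) := by
            rw [Finset.sum_product, Finset.sum_mul_sum, Finset.mul_sum]
            refine Finset.sum_congr rfl fun w _ => ?_
            rw [Finset.mul_sum]
            exact Finset.sum_congr rfl fun l _ => by ring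
        _ ≤ 16 * p.ε * D * ((p.C * W) * (2 * 4 ^ j.2)) := by
            refine mul_le_mul_of_nonneg_left (mul_le_mul (p.conv A j.1 i.1) (sum_four_pow _)
              (Finset.sum_nonneg fun l _ => by positivity) (mul_nonneg p.C_nonneg hW)) ?_
            have := p.ε_pos; positivity
        _ = 32 * p.ε * p.C * 4 ^ j.2 * W * D := by ring
    rw [← mul_sub, abs_mul, abs_of_pos p.ε_pos]
    have h3 := mul_le_mul_of_nonneg_left h2 p.ε_pos.le
    have h5 : 32 * p.ε ^ 2 * p.C * (4 ^ j.2 * W * D) ≤ 4 ^ j.2 * W * D :=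
      mul_le_of_le_one_left (by positivity) p.εC
    nlinarith

lemma abs_le_amgm {δ : ℝ} (hδ : 0 < δ) (x : ℝ) : |x| ≤ δ / 2 + x ^ 2 / (2 * δ) := by
  rw [← sq_abs x]
  have : δ / 2 + |x| ^ 2 / (2 * δ) - |x| = (|x| - δ) ^ 2 / (2 * δ) := by field_simp; ring
  have : 0 ≤ (|x| - δ) ^ 2 / (2 * δ) := by positivity
  linarith

variable [Countable V] [DecidableEq V]

/-- Laws of functions of finitely many outputs. -/
lemma integral_smp {A : Finset V} (hA : Convex' G A) (hne : A.Nonempty) {ρ : V → I}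
    (hρ : Set.InjOn ρ A) {S : Finset (V × ℕ)} (hS : ∀ j ∈ S, j.1 ∈ A)
    {f : (V × ℕ → I) → ℝ} (hf : Continuous f) (hd : DependsOn f (S : Set _)) :
    ∫ u, f (p.smp A ρ u) ∂iidLabels (V × ℕ) =
      ∫ y, f y * dens G p.θ p.ε A S y ∂iidLabels (V × ℕ) := by
  set K := S.sup Prod.snd + 1
  have hsub : S ⊆ A ×ˢ Finset.range K := fun j hj => Finset.mem_product.mpr
    ⟨hS j hj, Finset.mem_range.mpr (Nat.lt_succ_of_le (Finset.le_sup (f := Prod.snd) hj))⟩
  simp only [smp]
  rw [integral_samp p.hG p.abs_θ p.ε_pos.le p.ε_le hA hne hρ (A ×ˢ Finset.range K)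
    (fun j hj => (Finset.mem_product.mp hj).1) ?_ f hf (hd.mono (by exact_mod_cast hsub))]
  · have := integral_marginal (G := G) (θ := p.θ) (ε := p.ε) A hsub hf hd fun _ => 1
    simpa [dens] using this
  · intro j hj i hi
    obtain ⟨h1, h2⟩ := mem_past.mp hi
    have := Finset.mem_range.mp (Finset.mem_product.mp hj).2
    exact Finset.mem_product.mpr ⟨h1, Finset.mem_range.mpr (by have := h2.le; omega)⟩

omit [Countable V] [DecidableEq V] in
lemma evLik_consistent {A A' : Finset V} (hA : Convex' G A) (hA' : Convex' G A')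
    (hne : A.Nonempty) (hsub : A ⊆ A') {S : Finset (V × ℕ)} (hS : ∀ j ∈ S, j.1 ∈ A)
    (h : (V → Bool) → ℝ) (hh : ∀ η η' : V → Bool, (∀ v ∈ A, η v = η' v) → h η = h η')
    (y : V × ℕ → I) :
    Ev G p.θ A' (fun η => lik p.ε S η (rv y) * h η) =
      Ev G p.θ A (fun η => lik p.ε S η (rv y) * h η) :=
  Ev_mono_set p.hG hA hA' hne hsub _ fun η η' he => by
    rw [hh η η' he, lik_congr (fun j hj => he _ (hS j hj))]

omit [Countable V] [DecidableEq V] in
lemma dens_consistent {A A' : Finset V} (hA : Convex' G A) (hA' : Convex' G A')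
    (hne : A.Nonempty) (hsub : A ⊆ A') {S : Finset (V × ℕ)} (hS : ∀ j ∈ S, j.1 ∈ A)
    (y : V × ℕ → I) : dens G p.θ p.ε A' S y = dens G p.θ p.ε A S y := by
  simpa [dens] using p.evLik_consistent hA hA' hne hsub hS (fun _ => 1) (fun _ _ _ => rfl) y

/-- Two nested subtrees give the same law to the smaller one. -/
lemma integral_smp_eq {A A' : Finset V} (hA : Convex' G A) (hA' : Convex' G A')
    (hne : A.Nonempty) (hsub : A ⊆ A') {ρ : V → I} (hρ : Set.InjOn ρ A')
    {S : Finset (V × ℕ)} (hS : ∀ j ∈ S, j.1 ∈ A)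
    {f : (V × ℕ → I) → ℝ} (hf : Continuous f) (hd : DependsOn f (S : Set _)) :
    ∫ u, f (p.smp A' ρ u) ∂iidLabels (V × ℕ) = ∫ u, f (p.smp A ρ u) ∂iidLabels (V × ℕ) := by
  rw [p.integral_smp hA' (hne.mono hsub) hρ (fun j hj => hsub (hS j hj)) hf hd,
    p.integral_smp hA hne (hρ.mono (by exact_mod_cast hsub)) hS hf hd]
  simp only [p.dens_consistent hA hA' hne hsub hS]

/-- Mean square of the posterior mean. -/
noncomputable def qf (A : Finset V) (ρ : V → I) (j : V × ℕ) : ℝ :=
  ∫ u, p.mn A ρ j (p.smp A ρ u) ^ 2 ∂iidLabels (V × ℕ)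

omit [Countable V] in
lemma dependsOn_mn (A : Finset V) (ρ : V → I) (j : V × ℕ) :
    DependsOn (p.mn A ρ j) (past A ρ j : Set _) := fun y y' h => pmean_congr fun i hi => h i hi

/-- The increment of the mean square is the mean squared increment. -/
lemma integral_mn_sub_sq {A A' : Finset V} (hA : Convex' G A) (hA' : Convex' G A')
    (hne : A.Nonempty) (hsub : A ⊆ A') {ρ : V → I} (hρ : Set.InjOn ρ A') {j : V × ℕ}
    (hj : j.1 ∈ A) :
    ∫ u, (p.mn A' ρ j (p.smp A' ρ u) - p.mn A ρ j (p.smp A' ρ u)) ^ 2 ∂iidLabels (V × ℕ) =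
      p.qf A' ρ j - p.qf A ρ j := by
  have hρA : Set.InjOn ρ A := hρ.mono (by exact_mod_cast hsub)
  set S := past A ρ j
  set S' := past A' ρ j
  have hSS : S ⊆ S' := past_mono hsub ρ j
  have hSA : ∀ i ∈ S, i.1 ∈ A := fun i hi => (mem_past.mp hi).1
  have hSA' : ∀ i ∈ S', i.1 ∈ A' := fun i hi => (mem_past.mp hi).1
  set m := p.mn A ρ j
  set m' := p.mn A' ρ j
  have hm : Continuous m := p.continuous_mn A ρ j
  have hm' : Continuous m' := p.continuous_mn A' ρ j
  have hmd : DependsOn m (S : Set _) := p.dependsOn_mn A ρ j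
  have hs := p.continuous_smp A' ρ
  have i1 : Integrable (fun u => m' (p.smp A' ρ u) ^ 2) (iidLabels (V × ℕ)) :=
    integrable_of_continuous ((hm'.comp hs).pow 2)
  have i2 : Integrable (fun u => m (p.smp A' ρ u) ^ 2) (iidLabels (V × ℕ)) :=
    integrable_of_continuous ((hm.comp hs).pow 2)
  have i3 : Integrable (fun u => m (p.smp A' ρ u) * m' (p.smp A' ρ u)) (iidLabels (V × ℕ)) :=
    integrable_of_continuous ((hm.comp hs).mul (hm'.comp hs))
  have h2 : ∫ u, m (p.smp A' ρ u) ^ 2 ∂iidLabels (V × ℕ) = p.qf A ρ j :=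
    p.integral_smp_eq hA hA' hne hsub hρ hSA (hm.pow 2) (fun y y' h => by simp [hmd h])
  have h3 : ∫ u, m (p.smp A' ρ u) * m' (p.smp A' ρ u) ∂iidLabels (V × ℕ) = p.qf A ρ j := by
    rw [p.integral_smp hA' (hne.mono hsub) hρ hSA' (f := fun y => m y * m' y) (hm.mul hm')
      (fun y y' h => congrArg₂ (· * ·) (hmd (fun i hi => h i (hSS hi)))
        (p.dependsOn_mn A' ρ j h))]
    have e1 : ∀ y, m y * m' y * dens G p.θ p.ε A' S' y =
        m y * Ev G p.θ A' (fun η => lik p.ε S' η (rv y) * spin (η j.1)) := fun y => by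
      simp only [m', mn, pmean, numer, S', mul_assoc]
      rw [div_mul_cancel₀ _ (dens_pos p.abs_θ p.ε_pos.le p.ε_le A' _ y).ne']
    have e2 : ∀ y, m y * Ev G p.θ A' (fun η => lik p.ε S η (rv y) * spin (η j.1)) =
        m y ^ 2 * dens G p.θ p.ε A S y := fun y => by
      rw [p.evLik_consistent hA hA' hne hsub hSA (fun η => spin (η j.1))
        (fun η η' he => by rw [he _ hj])]
      simp only [m, mn, pmean, numer, S]
      field_simp [(dens_pos (G := G) p.abs_θ p.ε_pos.le p.ε_le A (past A ρ j) y).ne']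
    simp only [e1]
    rw [integral_marginal (G := G) (θ := p.θ) (ε := p.ε) A' hSS hm hmd fun η => spin (η j.1)]
    simp only [e2]
    exact (p.integral_smp hA hne hρA hSA (hm.pow 2) (fun y y' h => by simp [hmd h])).symm
  have e : ∀ u, (m' (p.smp A' ρ u) - m (p.smp A' ρ u)) ^ 2 =
      m' (p.smp A' ρ u) ^ 2 + m (p.smp A' ρ u) ^ 2 -
        2 * (m (p.smp A' ρ u) * m' (p.smp A' ρ u)) := fun u => by ring
  simp only [e]
  rw [integral_sub (i1.fun_add i2) (i3.const_mul 2), integral_add i1 i2, integral_const_mul, h2, h3]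
  simp only [qf, m']
  ring

/-- The weight with which the input `i` can move the output `j`. -/
noncomputable def wgt (G : SimpleGraph V) (lam : ℝ) (j i : V × ℕ) : ℝ :=
  4 * 4 ^ j.2 * lam ^ G.dist j.1 i.1

lemma wgt_nonneg (j i : V × ℕ) : 0 ≤ wgt G p.lam j i := by
  have := p.lam_nonneg; unfold wgt; positivity

/-- The window of inputs kept at radius `n`. -/
noncomputable def win [G.LocallyFinite] (j : V × ℕ) (n : ℕ) : Finset (V × ℕ) :=
  bll G j.1 n ×ˢ Finset.range (j.2 + 1)

/-- Comparison of two nested subtrees. -/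
lemma integral_smp_sub_le [G.LocallyFinite] {A A' : Finset V} (hA : Convex' G A)
    (hA' : Convex' G A') (hsub : A ⊆ A') {ρ : V → I} (hρ : Set.InjOn ρ A') {j : V × ℕ} {n : ℕ}
    (hball : bll G j.1 n ⊆ A) {δ δ' : ℝ} (hδ : 0 < δ) (hδ' : 0 < δ') :
    ∫ u, |(p.smp A ρ u j : ℝ) - p.smp A' ρ u j| ∂iidLabels (V × ℕ) ≤
      δ + (16 * 16 ^ j.2 * (j.2 + 1) * p.tail n) / δ +
        ∑ i ∈ win (G := G) j n,
          wgt G p.lam j i * (δ' / 2 + (p.qf A' ρ i - p.qf A ρ i) / (2 * δ')) := by
  classical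
  have hjA : j.1 ∈ A := hball (self_mem_bll p.hG.connected _ _)
  have hne : A.Nonempty := ⟨_, hjA⟩
  have hρA : Set.InjOn ρ A := hρ.mono (by exact_mod_cast hsub)
  set S := A ×ˢ Finset.range (j.2 + 1) with hS
  set W := win (G := G) j n with hW
  have hWS : W ⊆ S := Finset.product_subset_product_left hball
  set h : (V × ℕ → I) → ℝ := fun u => (p.smp A ρ u j : ℝ) with hh
  have hhc : Continuous h :=
    continuous_subtype_val.comp (continuous_pi_iff.mp (p.continuous_smp A ρ) j)
  have hhd : DependsOn h (S : Set _) := fun u u' hu => by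
    simp only [h, smp]
    rw [samp_congr (G := G) (θ := p.θ) (ε := p.ε) j
      (hu j (by simp [hS, hjA])) fun i hi => hu i (by
        obtain ⟨a, b⟩ := mem_past.mp hi
        simp only [hS, Finset.coe_product, Set.mem_prod, Finset.mem_coe, Finset.mem_range]
        exact ⟨a, Nat.lt_succ_of_le b.le⟩)]
  set T := (S \ W).toList with hT
  set φ := avgList T h with hφ
  have hφc : Continuous φ := continuous_avgList T hhc
  have hφd : DependsOn φ (W : Set _) := (avgList_dependsOn T hhd).mono fun i hi => by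
    have h1 : i ∈ S := hi.1
    have h2 : i ∉ T := hi.2
    rw [hT, Finset.mem_toList, Finset.mem_sdiff] at h2
    by_contra h3
    exact h2 ⟨h1, h3⟩
  have hsq : ∫ u, (h u - φ u) ^ 2 ∂iidLabels (V × ℕ) ≤
      16 * 16 ^ j.2 * (j.2 + 1) * p.tail n := by
    refine (integral_sq_sub_avgList T hhc (fun i => wgt G p.lam j i) fun i _ u a b =>
      (p.samp_lipschitz hA ρ i a b u j hjA).trans ?_).trans ?_
    · refine mul_le_of_le_one_right (p.wgt_nonneg j i) ?_
      exact abs_le.mpr ⟨by linarith [a.2.1, b.2.2], by linarith [a.2.2, b.2.1]⟩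
    · rw [hT, Finset.sum_map_toList]
      have hsd : S \ W = (A \ bll G j.1 n) ×ˢ Finset.range (j.2 + 1) := by
        ext ⟨w, l⟩; simp only [hS, hW, win, Finset.mem_sdiff, Finset.mem_product]; tauto
      rw [hsd, Finset.sum_product, Finset.sum_congr rfl
        (g := fun w => (16 * 16 ^ j.2 * ((j.2 : ℝ) + 1)) * (p.lam ^ G.dist j.1 w) ^ 2)
        (fun w _ => by
          simp only [wgt, mul_pow, Finset.sum_const, Finset.card_range, nsmul_eq_mul]
          rw [← pow_mul, mul_comm j.2 2, pow_mul]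
          norm_num; ring), ← Finset.mul_sum]
      refine mul_le_mul_of_nonneg_left (p.tail_bound _ _ _ fun w hw => ?_) (by positivity)
      rw [Finset.mem_sdiff, mem_bll p.hG.connected] at hw
      omega
  have habs : ∫ u, |h u - φ u| ∂iidLabels (V × ℕ) ≤
      δ / 2 + (16 * 16 ^ j.2 * (j.2 + 1) * p.tail n) / (2 * δ) := by
    refine (integral_le_integral (f := fun u => |h u - φ u|)
      (g := fun u => δ / 2 + (h u - φ u) ^ 2 / (2 * δ))
      (hhc.sub hφc).abs (continuous_const.add (((hhc.sub hφc).pow 2).div_const _))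
      fun u => abs_le_amgm hδ _).trans ?_
    rw [integral_add (integrable_const _)
      ((integrable_of_continuous (h := fun u => (h u - φ u) ^ 2) ((hhc.sub hφc).pow 2)).div_const _),
      integral_const, integral_div]
    simp only [probReal_univ, one_smul]
    gcongr
  set U : (V × ℕ → I) → V × ℕ → I := fun u => innov G p.θ p.ε A ρ (p.smp A' ρ u) with hU
  have hUc : Continuous U :=
    (continuous_innov p.abs_θ p.ε_pos.le p.ε_le A ρ).comp (p.continuous_smp A' ρ)
  have hUlaw : ∫ u, |φ (U u) - h (U u)| ∂iidLabels (V × ℕ) =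
      ∫ u, |φ u - h u| ∂iidLabels (V × ℕ) := by
    set g : (V × ℕ → I) → ℝ := fun y =>
      |φ (innov G p.θ p.ε A ρ y) - h (innov G p.θ p.ε A ρ y)| with hg
    have hgd : DependsOn g (S : Set _) := fun y y' hy => by
      have e : ∀ i ∈ S, innov G p.θ p.ε A ρ y i = innov G p.θ p.ε A ρ y' i := fun i hi => by
        simp only [innov]
        rw [hy i hi, pmean_congr fun a ha => hy a (by
          obtain ⟨a1, a2⟩ := mem_past.mp ha
          simp only [hS, Finset.mem_product, Finset.mem_range] at hi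
          simp only [hS, Finset.coe_product, Set.mem_prod, Finset.mem_coe, Finset.mem_range]
          exact ⟨a1, by have := a2.le; omega⟩)]
      simp only [g]
      rw [hφd (fun i hi => e i (hWS hi)), hhd e]
    have hgc : Continuous g :=
      (((hφc.sub hhc).abs).comp (continuous_innov p.abs_θ p.ε_pos.le p.ε_le A ρ))
    refine (p.integral_smp_eq hA hA' hne hsub hρ (S := S)
      (fun i hi => (Finset.mem_product.mp hi).1) hgc hgd).trans ?_
    refine integral_congr_ae (Filter.Eventually.of_forall fun u => ?_)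
    simp only [g, smp, innov_samp p.abs_θ p.ε_pos.le p.ε_le]
  have hout : ∀ u, h (U u) = (p.smp A' ρ u j : ℝ) := fun u => by
    simp only [h, U, smp, samp_innov p.abs_θ p.ε_pos.le p.ε_le]
  have hin : ∀ u, |φ u - φ (U u)| ≤ ∑ i ∈ W, wgt G p.lam j i *
      |p.mn A' ρ i (p.smp A' ρ u) - p.mn A ρ i (p.smp A' ρ u)| := by
    intro u
    have tele : ∀ T' ⊆ W, |φ u - φ (T'.piecewise (U u) u)| ≤
        ∑ i ∈ T', wgt G p.lam j i * |(u i : ℝ) - U u i| := by
      intro T' hT'
      induction T' using Finset.induction_on with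
      | empty => simp
      | @insert a T' ha ih =>
        set z := T'.piecewise (U u) u with hz
        have e1 : z = update z a (u a) := by
          rw [eq_comm, update_eq_self_iff, hz, Finset.piecewise_eq_of_notMem _ _ _ ha]
        have e2 : (insert a T').piecewise (U u) u = update z a (U u a) :=
          Finset.piecewise_insert ..
        have hstep : |φ z - φ ((insert a T').piecewise (U u) u)| ≤
            wgt G p.lam j a * |(u a : ℝ) - U u a| := by
          rw [e2, e1, update_idem]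
          exact osc_avgList T hhc (fun u' => p.samp_lipschitz hA ρ a _ _ u' j hjA) z
        rw [Finset.sum_insert ha]
        exact (abs_sub_le _ (φ z) _).trans
          ((add_le_add (ih ((Finset.subset_insert a T').trans hT')) hstep).trans_eq (by ring))
    have hsame : φ (W.piecewise (U u) u) = φ (U u) :=
      hφd fun i hi => Finset.piecewise_eq_of_mem _ _ _ hi
    rw [← hsame]
    refine (tele W subset_rfl).trans (Finset.sum_le_sum fun i _ =>
      mul_le_mul_of_nonneg_left ?_ (p.wgt_nonneg j i))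
    set y := p.smp A' ρ u with hy
    have e : u i = innov G p.θ p.ε A' ρ y i := by
      rw [hy, smp, innov_samp p.abs_θ p.ε_pos.le p.ε_le]
    simp only [U, ← hy]
    conv_lhs => rw [e]
    rw [innov_val p.abs_θ p.ε_pos.le p.ε_le, innov_val p.abs_θ p.ε_pos.le p.ε_le]
    simp only [cdfMix]
    rw [show (y i : ℝ) + p.ε * p.mn A' ρ i y * ((y i : ℝ) ^ 2 - y i) -
        ((y i : ℝ) + p.ε * p.mn A ρ i y * ((y i : ℝ) ^ 2 - y i)) =
        (p.ε * ((y i : ℝ) ^ 2 - y i)) * (p.mn A' ρ i y - p.mn A ρ i y) by ring, abs_mul]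
    refine mul_le_of_le_one_left (abs_nonneg _) ?_
    rw [abs_mul, abs_of_pos p.ε_pos]
    have : |(y i : ℝ) ^ 2 - y i| ≤ 1 :=
      abs_le.mpr ⟨by nlinarith [(y i).2.1, (y i).2.2], by nlinarith [(y i).2.1, (y i).2.2]⟩
    nlinarith [p.ε_le, p.ε_pos, abs_nonneg ((y i : ℝ) ^ 2 - y i)]
  have c1 : Continuous fun u => |h u - φ u| := (hhc.sub hφc).abs
  have c2 : Continuous fun u => |φ (U u) - h (U u)| :=
    ((hφc.comp hUc).sub (hhc.comp hUc)).abs
  have cd : ∀ i, Continuous fun u =>
      |p.mn A' ρ i (p.smp A' ρ u) - p.mn A ρ i (p.smp A' ρ u)| := fun i =>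
    (((p.continuous_mn A' ρ i).comp (p.continuous_smp A' ρ)).sub
      ((p.continuous_mn A ρ i).comp (p.continuous_smp A' ρ))).abs
  have c3 : Continuous fun u => ∑ i ∈ W, wgt G p.lam j i *
      |p.mn A' ρ i (p.smp A' ρ u) - p.mn A ρ i (p.smp A' ρ u)| :=
    continuous_finsetSum _ fun i _ => continuous_const.mul (cd i)
  refine (integral_le_integral (f := fun u => |(p.smp A ρ u j : ℝ) - p.smp A' ρ u j|)
    (g := fun u => |h u - φ u| + |φ (U u) - h (U u)| + ∑ i ∈ W, wgt G p.lam j i *
      |p.mn A' ρ i (p.smp A' ρ u) - p.mn A ρ i (p.smp A' ρ u)|)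
    (hhc.sub (continuous_subtype_val.comp
      (continuous_pi_iff.mp (p.continuous_smp A' ρ) j))).abs ((c1.add c2).add c3)
    fun u => ?_).trans ?_
  · rw [← hout u]
    have := hin u
    have t1 := abs_sub_le (h u) (φ u) (h (U u))
    have t2 := abs_sub_le (φ u) (φ (U u)) (h (U u))
    linarith
  · rw [integral_add ((integrable_of_continuous c1).fun_add (integrable_of_continuous c2))
        (integrable_of_continuous c3),
      integral_add (integrable_of_continuous c1) (integrable_of_continuous c2), hUlaw,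
      integral_finsetSum _ fun i _ => (integrable_of_continuous (cd i)).const_mul _]
    simp only [abs_sub_comm (φ _) (h _)]
    refine add_le_add ?_ (Finset.sum_le_sum fun i hi => ?_)
    · calc _ ≤ (δ / 2 + (16 * 16 ^ j.2 * (j.2 + 1) * p.tail n) / (2 * δ)) +
            (δ / 2 + (16 * 16 ^ j.2 * (j.2 + 1) * p.tail n) / (2 * δ)) := add_le_add habs habs
        _ = _ := by field_simp; ring
    · rw [integral_const_mul]
      refine mul_le_mul_of_nonneg_left ?_ (p.wgt_nonneg j i)
      have hiA : i.1 ∈ A := hball (Finset.mem_product.mp hi).1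
      have cf := ((p.continuous_mn A' ρ i).comp (p.continuous_smp A' ρ)).sub
        ((p.continuous_mn A ρ i).comp (p.continuous_smp A' ρ))
      refine (integral_le_integral (g := fun u => δ' / 2 +
        (p.mn A' ρ i (p.smp A' ρ u) - p.mn A ρ i (p.smp A' ρ u)) ^ 2 / (2 * δ'))
        (cd i) (continuous_const.add ((cf.pow 2).div_const _)) fun u => abs_le_amgm hδ' _).trans ?_
      rw [integral_add (integrable_const _) ((integrable_of_continuous
          (h := fun u => (p.mn A' ρ i (p.smp A' ρ u) - p.mn A ρ i (p.smp A' ρ u)) ^ 2)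
          (cf.pow 2)).div_const _), integral_const, integral_div,
        p.integral_mn_sub_sq hA hA' hne hsub hρ hiA]
      simp

end Params

end Vale.Agent.P161
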