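import Mathlib

/-!
# Factor-of-IID free Ising measure on a tree: definitions
-/

open MeasureTheory

namespace Vale.Agent.P161

/-- The spin value `+1` or `-1` of a Boolean. -/
def spin (b : Bool) : ℝ := if b then 1 else -1

variable {V : Type*}

open Classical in
/-- The edges of `G` with both endpoints in `D`. -/
noncomputable def edgesIn (G : SimpleGraph V) (D : Finset V) : Finset (Sym2 V) :=
  D.sym2.filter fun e => e ∈ G.edgeSet

/-- The factor `(1 + θ η_u η_v) / 2` attached to the edge `{u, v}`. -/
noncomputable def edgeWeight (θ : ℝ) (η : V → Bool) (e : Sym2 V) : ℝ :=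
  Sym2.lift ⟨fun u v => (1 + θ * spin (η u) * spin (η v)) / 2, fun u v => by ring⟩ e

/-- The law of i.i.d. uniform labels in `[0,1]` on the vertices. -/
noncomputable def iidLabels (V : Type*) : Measure (V → unitInterval) :=
  Measure.infinitePi fun _ : V => volume

/-- The free zero-field Ising measure with parameter `θ` on `G` is a factor of IID: some measurable
map of i.i.d. uniform labels commutes a.s. with each automorphism and has the free Ising
finite-dimensional laws on all finite connected vertex sets. -/
def IsFIIDFreeIsing (G : SimpleGraph V) (θ : ℝ) : Prop :=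
  ∃ Φ : (V → unitInterval) → (V → Bool), Measurable Φ ∧
    (∀ g : G ≃g G, ∀ᵐ U ∂iidLabels V,
      Φ (fun v => U (g.symm v)) = fun v => Φ U (g.symm v)) ∧
    ∀ D : Finset V, (G.induce (D : Set V)).Connected → ∀ η : V → Bool,
      (iidLabels V {U | ∀ v ∈ D, Φ U v = η v}).toReal
        = (1 / 2) * ∏ e ∈ edgesIn G D, edgeWeight θ η e

end Vale.Agent.P161
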