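import Vale.Agent.P161.Defs

/-!
# Geometry of regular trees
-/

namespace Vale.Agent.P161

open SimpleGraph

variable {V : Type*} {G : SimpleGraph V}

/-- A step from `x` toward `y`. -/
lemma exists_step (hG : G.Connected) {x y : V} (h : x ≠ y) :
    ∃ z, G.Adj x z ∧ G.dist x y = G.dist z y + 1 := by
  obtain ⟨p, hp⟩ := hG.exists_walk_length_eq_dist x y
  cases p with
  | nil => exact absurd rfl h
  | @cons _ z _ hxz q =>
    refine ⟨z, hxz, ?_⟩
    rw [Walk.length_cons] at hp
    have h1 := dist_le q
    have h2 : G.dist x y ≤ G.dist x z + G.dist z y := hG.dist_triangle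
    rw [dist_eq_one_iff_adj.mpr hxz] at h2
    omega

/-- In a tree, a vertex has only one neighbour closer to a given vertex. -/
lemma closer_unique (hG : G.IsTree) {u x a b : V} (ha : G.Adj a x) (hb : G.Adj b x)
    (hda : G.dist u a + 1 = G.dist u x) (hdb : G.dist u b + 1 = G.dist u x) : a = b := by
  obtain ⟨p, hp, hpl⟩ := hG.connected.exists_path_of_dist u a
  obtain ⟨q, hq, hql⟩ := hG.connected.exists_path_of_dist u b
  have hp' : (p.concat ha).IsPath :=
    Walk.isPath_of_length_eq_dist _ (by rw [Walk.length_concat]; omega)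
  have hq' : (q.concat hb).IsPath :=
    Walk.isPath_of_length_eq_dist _ (by rw [Walk.length_concat]; omega)
  have := congrArg Walk.penultimate ((hG.existsUnique_path u x).unique hp' hq')
  simpa using this

/-- `x` is on the `u'` side of the edge `{u, u'}`. -/
def Far (G : SimpleGraph V) (u u' x : V) : Prop := G.dist x u' < G.dist x u

lemma far_self {u u' : V} (h : G.Adj u u') : Far G u u' u' := by
  simp only [Far, dist_self]
  exact h.symm.reachable.pos_dist_of_ne h.ne'

lemma not_far_self {u u' : V} : ¬ Far G u u' u := by simp [Far]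

lemma far_dist (hG : G.IsTree) {u u' x : V} (h : G.Adj u u') (hx : Far G u u' x) :
    G.dist x u = G.dist x u' + 1 := by
  unfold Far at hx
  rcases hG.dist_eq_dist_add_one_of_adj x h with e | e <;> omega

lemma not_far_dist (hG : G.IsTree) {u u' x : V} (h : G.Adj u u') (hx : ¬ Far G u u' x) :
    G.dist x u' = G.dist x u + 1 := by
  unfold Far at hx
  rcases hG.dist_eq_dist_add_one_of_adj x h with e | e <;> omega

lemma far_swap (hG : G.IsTree) {u u' x : V} (h : G.Adj u u') :
    Far G u' u x ↔ ¬ Far G u u' x := by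
  unfold Far
  rcases hG.dist_eq_dist_add_one_of_adj x h with e | e <;> omega

/-- Only one edge leads from one side to the other. -/
lemma crossing (hG : G.IsTree) {u u' x y : V} (h : G.Adj u u') (hxy : G.Adj x y)
    (hx : ¬ Far G u u' x) (hy : Far G u u' y) : x = u ∧ y = u' := by
  have hc := hG.connected
  have e1 := not_far_dist hG h hx
  have e2 := far_dist hG h hy
  have t1 : G.dist x u' ≤ G.dist x y + G.dist y u' := hc.dist_triangle
  have t2 : G.dist y u ≤ G.dist y x + G.dist x u := hc.dist_triangle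
  rw [dist_eq_one_iff_adj.mpr hxy] at t1
  rw [dist_eq_one_iff_adj.mpr hxy.symm] at t2
  have hm : G.dist x u = G.dist y u' := by omega
  by_cases hxu : x = u
  · subst hxu
    rw [dist_self] at hm
    exact ⟨rfl, hc.dist_eq_zero_iff.mp hm.symm⟩
  · obtain ⟨z, hxz, hz⟩ := exists_step hc hxu
    have t3 : G.dist x u' ≤ G.dist x z + G.dist z u' := hc.dist_triangle
    have t4 : G.dist z u' ≤ G.dist z u + G.dist u u' := hc.dist_triangle
    rw [dist_eq_one_iff_adj.mpr hxz] at t3
    rw [dist_eq_one_iff_adj.mpr h] at t4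
    have hzy : z = y := by
      apply closer_unique hG hxz.symm hxy.symm (u := u')
      · rw [dist_comm (u := u'), dist_comm (u := u')]; omega
      · rw [dist_comm (u := u'), dist_comm (u := u')]; omega
    subst hzy
    omega

lemma dist_across (hG : G.IsTree) {u u' : V} (h : G.Adj u u') :
    ∀ {x y : V}, ¬ Far G u u' x → Far G u u' y →
      G.dist x y = G.dist x u + 1 + G.dist u' y := by
  have hc := hG.connected
  suffices ∀ n, ∀ {x y : V}, G.dist x y = n → ¬ Far G u u' x → Far G u u' y →
      G.dist x y = G.dist x u + 1 + G.dist u' y from fun {x y} hx hy => this _ rfl hx hy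
  intro n
  induction n with
  | zero =>
    intro x y hd hx hy
    exact absurd (hc.dist_eq_zero_iff.mp hd ▸ hy) hx
  | succ n ih =>
    intro x y hd hx hy
    have hne : x ≠ y := by rintro rfl; exact hx hy
    obtain ⟨z, hxz, hz⟩ := exists_step hc hne
    by_cases hzf : Far G u u' z
    · obtain ⟨rfl, rfl⟩ := crossing hG h hxz hx hzf
      rw [dist_self]; omega
    · have := ih (x := z) (y := y) (by omega) hzf hy
      have t : G.dist x u ≤ G.dist x z + G.dist z u := hc.dist_triangle
      rw [dist_eq_one_iff_adj.mpr hxz] at t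
      have t2 : G.dist x y ≤ G.dist x u + G.dist u y := hc.dist_triangle
      have t3 : G.dist u y = G.dist u' y + 1 := by
        rw [dist_comm (u := u), dist_comm (u := u'), far_dist hG h hy]
      omega

/-- A set of vertices closed under geodesics. -/
def Convex' (G : SimpleGraph V) (A : Finset V) : Prop :=
  ∀ x ∈ A, ∀ y ∈ A, ∀ z, G.dist x z + G.dist z y = G.dist x y → z ∈ A

lemma far_between (hG : G.IsTree) {u u' x y z : V} (h : G.Adj u u')
    (hx : Far G u u' x) (hy : Far G u u' y)
    (hz : G.dist x z + G.dist z y = G.dist x y) : Far G u u' z := by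
  by_contra hzf
  have a := dist_across hG h hzf hx
  have b := dist_across hG h hzf hy
  have t : G.dist x y ≤ G.dist x u' + G.dist u' y := hG.connected.dist_triangle
  rw [dist_comm (u := x) (v := z)] at hz
  rw [dist_comm (u := x) (v := u')] at t
  omega

lemma not_far_between (hG : G.IsTree) {u u' x y z : V} (h : G.Adj u u')
    (hx : ¬ Far G u u' x) (hy : ¬ Far G u u' y)
    (hz : G.dist x z + G.dist z y = G.dist x y) : ¬ Far G u u' z := by
  rw [← far_swap hG h] at hx hy ⊢
  exact far_between hG h.symm hx hy hz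

open Classical in
lemma Convex'.filter_far (hG : G.IsTree) {A : Finset V} (hA : Convex' G A) {u u' : V}
    (h : G.Adj u u') : Convex' G (A.filter fun x => Far G u u' x) := by
  intro x hx y hy z hz
  rw [Finset.mem_filter] at hx hy ⊢
  exact ⟨hA x hx.1 y hy.1 z hz, far_between hG h hx.2 hy.2 hz⟩

open Classical in
lemma Convex'.filter_not_far (hG : G.IsTree) {A : Finset V} (hA : Convex' G A) {u u' : V}
    (h : G.Adj u u') : Convex' G (A.filter fun x => ¬ Far G u u' x) := by
  intro x hx y hy z hz
  rw [Finset.mem_filter] at hx hy ⊢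
  exact ⟨hA x hx.1 y hy.1 z hz, not_far_between hG h hx.2 hy.2 hz⟩

lemma Convex'.step_mem {A : Finset V} (hA : Convex' G A) {x y z : V}
    (hx : x ∈ A) (hy : y ∈ A) (hxz : G.Adj x z) (hz : G.dist x y = G.dist z y + 1) :
    z ∈ A :=
  hA x hx y hy z (by rw [dist_eq_one_iff_adj.mpr hxz]; omega)

/-- Connected sets of vertices in a tree are closed under geodesics. -/
lemma convex_of_connected (hG : G.IsTree) {D : Finset V}
    (hD : (G.induce (D : Set V)).Connected) : Convex' G D := by
  intro x hx y hy z hz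
  by_contra hzD
  have hne : z ≠ x := fun e => hzD (e ▸ hx)
  obtain ⟨z', hzz, hz'⟩ := exists_step hG.connected hne
  have key : ∀ {a b : (D : Set V)}, (G.induce (D : Set V)).Walk a b →
      (Far G z z' a ↔ Far G z z' b) := by
    intro a b w
    induction w with
    | nil => rfl
    | @cons a c b hac q ih =>
      rw [← ih]
      have hadj : G.Adj (a : V) (c : V) := hac
      constructor <;> intro hf <;> by_contra hn
      · have := (crossing hG hzz hadj.symm hn hf).1
        exact hzD (this ▸ c.2)
      · have := (crossing hG hzz hadj hn hf).1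
        exact hzD (this ▸ a.2)
  have hfx : Far G z z' x := by
    have : G.dist x z = G.dist x z' + 1 := by
      rw [dist_comm (u := x), dist_comm (u := x)]; exact hz'
    unfold Far; omega
  obtain ⟨w⟩ := hD.preconnected ⟨x, hx⟩ ⟨y, hy⟩
  exact not_far_self (far_between hG hzz hfx ((key w).mp hfx) hz)

open Classical in
/-- Leaf removal relative to a convex subset. -/
lemma exists_leaf (hG : G.IsTree) {A A' : Finset V} (hA : Convex' G A) (hA' : Convex' G A')
    (hne : A.Nonempty) (hsub : A ⊆ A') (hd : (A' \ A).Nonempty) :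
    ∃ x z, x ∈ A' ∧ x ∉ A ∧ z ∈ A'.erase x ∧ G.Adj x z ∧
      (∀ w ∈ A', G.Adj x w → w = z) ∧ Convex' G (A'.erase x) := by
  obtain ⟨a, ha⟩ := hne
  obtain ⟨x, hx, hmax⟩ := (A' \ A).exists_max_image (fun w => G.dist a w) hd
  rw [Finset.mem_sdiff] at hx
  have hxa : x ≠ a := fun e => hx.2 (e ▸ ha)
  obtain ⟨z, hxz, hz⟩ := exists_step hG.connected hxa
  have hzA' : z ∈ A' := hA'.step_mem hx.1 (hsub ha) hxz hz
  have huniq : ∀ w ∈ A', G.Adj x w → w = z := by
    intro w hw hxw
    rcases hG.dist_eq_dist_add_one_of_adj a hxw with e | e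
    · apply closer_unique hG hxw.symm hxz.symm (u := a) e.symm
      rw [dist_comm (u := a), dist_comm (u := a) (v := x)]; omega
    · by_cases hwA : w ∈ A
      · exact absurd (hA a ha w hwA x (by rw [dist_eq_one_iff_adj.mpr hxw]; omega)) hx.2
      · have := hmax w (Finset.mem_sdiff.mpr ⟨hw, hwA⟩)
        omega
  refine ⟨x, z, hx.1, hx.2, Finset.mem_erase.mpr ⟨hxz.ne', hzA'⟩, hxz, huniq, ?_⟩
  intro y₁ hy₁ y₂ hy₂ t ht
  rw [Finset.mem_erase] at hy₁ hy₂ ⊢
  refine ⟨?_, hA' y₁ hy₁.2 y₂ hy₂.2 t ht⟩
  rintro rfl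
  have hzf : ∀ y, y ≠ t → y ∈ A' → G.dist t y = G.dist z y + 1 := by
    intro y hy hyA
    obtain ⟨w, htw, hw⟩ := exists_step hG.connected (Ne.symm hy)
    rwa [huniq w (hA'.step_mem hx.1 hyA htw hw) htw] at hw
  have h1 := hzf y₁ hy₁.1 hy₁.2
  have h2 := hzf y₂ hy₂.1 hy₂.2
  have t' : G.dist y₁ y₂ ≤ G.dist y₁ z + G.dist z y₂ := hG.connected.dist_triangle
  rw [dist_comm (u := y₁) (v := t)] at ht
  rw [dist_comm (u := y₁) (v := z)] at t'
  omega

section Balls

variable [G.LocallyFinite]

open Classical in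
/-- The sphere of radius `n` around `v`. -/
noncomputable def sph (G : SimpleGraph V) [G.LocallyFinite] (v : V) : ℕ → Finset V
  | 0 => {v}
  | n + 1 => (sph G v n).biUnion fun x => (G.neighborFinset x).filter fun y => G.dist v y = n + 1

lemma mem_sph (hG : G.Connected) {v x : V} {n : ℕ} : x ∈ sph G v n ↔ G.dist v x = n := by
  classical
  induction n generalizing x with
  | zero => simp [sph, hG.dist_eq_zero_iff, eq_comm]
  | succ n ih =>
    simp only [sph, Finset.mem_biUnion, Finset.mem_filter, mem_neighborFinset]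
    constructor
    · rintro ⟨y, -, -, h⟩; exact h
    · intro h
      have hne : x ≠ v := by rintro rfl; simp at h
      obtain ⟨z, hxz, hz⟩ := exists_step hG hne
      refine ⟨z, ih.mpr ?_, hxz.symm, h⟩
      rw [dist_comm] at h ⊢; omega

open Classical in
/-- The ball of radius `n` around `v`. -/
noncomputable def bll (G : SimpleGraph V) [G.LocallyFinite] (v : V) (n : ℕ) : Finset V :=
  (Finset.range (n + 1)).biUnion fun i => sph G v i

lemma mem_bll (hG : G.Connected) {v x : V} {n : ℕ} : x ∈ bll G v n ↔ G.dist v x ≤ n := by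
  classical
  simp [bll, mem_sph hG]

lemma self_mem_bll (hG : G.Connected) (v : V) (n : ℕ) : v ∈ bll G v n := by simp [mem_bll hG]

lemma bll_mono (hG : G.Connected) (v : V) {m n : ℕ} (h : m ≤ n) : bll G v m ⊆ bll G v n := by
  intro x; simp only [mem_bll hG]; omega

lemma convex_bll (hG : G.IsTree) (v : V) (n : ℕ) : Convex' G (bll G v n) := by
  intro x hx y hy z hz
  rw [mem_bll hG.connected] at hx hy ⊢
  by_contra hlt
  have hne : z ≠ v := by rintro rfl; simp at hlt
  obtain ⟨z', hzz, hz'⟩ := exists_step hG.connected hne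
  have hvf : Far G z z' v := by
    unfold Far; rw [dist_comm (u := v), dist_comm (u := v)]; omega
  have hcase : ∀ p, G.dist v p ≤ n → Far G z z' p := by
    intro p hp
    by_contra hpn
    have := dist_across hG hzz hpn hvf
    rw [dist_comm (u := p) (v := v)] at this
    rw [dist_comm (u := v) (v := z)] at hlt
    omega
  exact not_far_self (far_between hG hzz (hcase x hx) (hcase y hy) hz)

lemma exists_bll_superset (hG : G.Connected) (v : V) (A : Finset V) :
    ∃ n, A ⊆ bll G v n :=
  ⟨A.sup (G.dist v), fun x hx => (mem_bll hG).mpr (Finset.le_sup (f := G.dist v) hx)⟩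

variable {d : ℕ}

lemma card_sph_le (hG : G.IsTree) (hdeg : ∀ v, G.degree v = d) (v : V) (n : ℕ) :
    (sph G v (n + 1)).card ≤ d * (d - 1) ^ n := by
  classical
  induction n with
  | zero =>
    simp only [sph, Finset.singleton_biUnion, pow_zero, mul_one]
    exact (Finset.card_filter_le _ _).trans_eq (by rw [card_neighborFinset_eq_degree, hdeg])
  | succ n ih =>
    rw [sph, pow_succ, ← mul_assoc]
    refine (Finset.card_biUnion_le_card_mul _ _ (d - 1) fun x hx => ?_).trans
      (Nat.mul_le_mul_right _ ih)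
    rw [mem_sph hG.connected] at hx
    have hne : x ≠ v := by rintro rfl; simp at hx
    obtain ⟨p, hxp, hp⟩ := exists_step hG.connected hne
    refine (Finset.card_le_card (t := (G.neighborFinset x).erase p) ?_).trans_eq ?_
    · intro y hy
      rw [Finset.mem_filter] at hy
      refine Finset.mem_erase.mpr ⟨?_, hy.1⟩
      rintro rfl
      rw [dist_comm] at hx
      rw [dist_comm (u := v)] at hy
      omega
    · rw [Finset.card_erase_of_mem ((G.mem_neighborFinset _ _).mpr hxp),
        card_neighborFinset_eq_degree, hdeg]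

/-- Geometric decay with rate beating the growth is summable. -/
lemma sum_pow_dist_le (hG : G.IsTree) (hd : 2 ≤ d) (hdeg : ∀ v, G.degree v = d) (v : V)
    {r : ℝ} (hr : 0 ≤ r) (hr1 : ((d : ℝ) - 1) * r < 1) (U : Finset V) (n₀ : ℕ)
    (hU : ∀ u ∈ U, n₀ ≤ G.dist v u) :
    ∑ u ∈ U, r ^ G.dist v u ≤ 2 * (((d : ℝ) - 1) * r) ^ n₀ / (1 - ((d : ℝ) - 1) * r) := by
  classical
  set q : ℝ := (d : ℝ) - 1 with hq
  have hd' : (2 : ℝ) ≤ d := by exact_mod_cast hd
  have hq0 : 0 ≤ q * r := mul_nonneg (by linarith) hr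
  have hcard : ∀ n, ((sph G v n).card : ℝ) ≤ 2 * q ^ n := by
    intro n
    cases n with
    | zero => simp [sph]
    | succ n =>
      have h := card_sph_le hG hdeg v n
      have hc : ((d - 1 : ℕ) : ℝ) = q := by rw [Nat.cast_sub (by omega)]; simp [hq]
      calc ((sph G v (n + 1)).card : ℝ) ≤ (d : ℝ) * q ^ n := by
            rw [← hc]; exact_mod_cast h
        _ ≤ (2 * q) * q ^ n :=
            mul_le_mul_of_nonneg_right (by linarith) (pow_nonneg (by linarith) _)
        _ = 2 * q ^ (n + 1) := by ring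
  set N := U.sup (G.dist v) + 1 with hN
  have hmaps : ∀ u ∈ U, G.dist v u ∈ Finset.Ico n₀ N := fun u hu =>
    Finset.mem_Ico.mpr ⟨hU u hu, Nat.lt_succ_of_le (Finset.le_sup (f := G.dist v) hu)⟩
  rw [← Finset.sum_fiberwise_of_maps_to hmaps]
  calc ∑ n ∈ Finset.Ico n₀ N, ∑ u ∈ U.filter (fun u => G.dist v u = n), r ^ G.dist v u
      ≤ ∑ n ∈ Finset.Ico n₀ N, 2 * (q * r) ^ n := by
        refine Finset.sum_le_sum fun n _ => ?_
        rw [Finset.sum_congr rfl (g := fun _ => r ^ n) (fun u hu => by
          rw [(Finset.mem_filter.mp hu).2]), Finset.sum_const, nsmul_eq_mul]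
        calc ((U.filter fun u => G.dist v u = n).card : ℝ) * r ^ n
            ≤ (2 * q ^ n) * r ^ n := by
              refine mul_le_mul_of_nonneg_right (le_trans ?_ (hcard n)) (pow_nonneg hr _)
              exact_mod_cast Finset.card_le_card fun u hu =>
                (mem_sph hG.connected).mpr (Finset.mem_filter.mp hu).2
          _ = 2 * (q * r) ^ n := by rw [mul_pow]; ring
    _ = 2 * ∑ n ∈ Finset.Ico n₀ N, (q * r) ^ n := by rw [Finset.mul_sum]
    _ ≤ 2 * ((q * r) ^ n₀ / (1 - q * r)) :=
        mul_le_mul_of_nonneg_left (geom_sum_Ico_le_of_lt_one hq0 hr1) (by norm_num)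
    _ = 2 * (q * r) ^ n₀ / (1 - q * r) := by ring

/-- The convolution of two exponentially decaying kernels. -/
lemma conv_le (hG : G.IsTree) (hd : 2 ≤ d) (hdeg : ∀ v, G.degree v = d)
    {a b : ℝ} (ha : 0 ≤ a) (hab : a < b) (hr1 : ((d : ℝ) - 1) * (a * b) < 1)
    (U : Finset V) (v w : V) :
    ∑ u ∈ U, a ^ G.dist v u * b ^ G.dist u w ≤
      (2 / (1 - ((d : ℝ) - 1) * (a * b))) / (1 - a / b) * b ^ G.dist v w := by
  classical
  set A := 2 / (1 - ((d : ℝ) - 1) * (a * b)) with hA
  set C := A / (1 - a / b) with hC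
  have hb : 0 < b := lt_of_le_of_lt ha hab
  have hA0 : 0 ≤ A := div_nonneg zero_le_two (by linarith)
  have hab' : a / b < 1 := (div_lt_one hb).mpr hab
  have hCA : A + a / b * C = C := by
    have : (1 : ℝ) - a / b ≠ 0 := by linarith
    rw [hC]; field_simp [show b - a ≠ 0 by linarith]; ring
  have hAC : A ≤ C := by
    rw [← hCA]
    have : 0 ≤ a / b * C := mul_nonneg (div_nonneg ha hb.le) (div_nonneg hA0 (by linarith))
    linarith
  have base : ∀ (U : Finset V) (v : V), ∑ u ∈ U, (a * b) ^ G.dist v u ≤ A := fun U v => by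
    have := sum_pow_dist_le hG hd hdeg v (mul_nonneg ha hb.le) hr1 U 0 (fun _ _ => Nat.zero_le _)
    simpa using this
  suffices ∀ n, ∀ (U : Finset V) (v w : V), G.dist v w = n →
      ∑ u ∈ U, a ^ G.dist v u * b ^ G.dist u w ≤ C * b ^ n from this _ U v w rfl
  intro n
  induction n with
  | zero =>
    intro U v w h
    obtain rfl := hG.connected.dist_eq_zero_iff.mp h
    rw [pow_zero, mul_one]
    refine le_trans (le_of_eq (Finset.sum_congr rfl fun u _ => ?_)) ((base U v).trans hAC)
    rw [dist_comm (u := u), mul_pow]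
  | succ n ih =>
    intro U v w h
    have hne : v ≠ w := by rintro rfl; simp at h
    obtain ⟨v', hvv, hv'⟩ := exists_step hG.connected hne
    have hwf : Far G v v' w := by
      unfold Far; rw [dist_comm (u := w), dist_comm (u := w)]; omega
    rw [← Finset.sum_filter_add_sum_filter_not U (fun u => Far G v v' u)]
    have h1 : ∑ u ∈ U.filter (fun u => Far G v v' u), a ^ G.dist v u * b ^ G.dist u w
        ≤ a * (C * b ^ n) := by
      rw [Finset.sum_congr rfl (g := fun u => a * (a ^ G.dist v' u * b ^ G.dist u w))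
        (fun u hu => by
          rw [dist_comm (u := v), far_dist hG hvv (Finset.mem_filter.mp hu).2,
            dist_comm (u := u) (v := v'), pow_succ]
          ring), ← Finset.mul_sum]
      exact mul_le_mul_of_nonneg_left (ih _ v' w (by omega)) ha
    have h2 : ∑ u ∈ U.filter (fun u => ¬ Far G v v' u), a ^ G.dist v u * b ^ G.dist u w
        ≤ A * b ^ (n + 1) := by
      rw [Finset.sum_congr rfl (g := fun u => (a * b) ^ G.dist v u * b ^ (n + 1))
        (fun u hu => by
          rw [dist_across hG hvv (Finset.mem_filter.mp hu).2 hwf, dist_comm (u := u) (v := v),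
            mul_pow, show G.dist v u + 1 + G.dist v' w = G.dist v u + (n + 1) by omega, pow_add]
          ring), ← Finset.sum_mul]
      exact mul_le_mul_of_nonneg_right (base _ v) (pow_nonneg hb.le _)
    calc _ ≤ a * (C * b ^ n) + A * b ^ (n + 1) := add_le_add h1 h2
      _ = (A + a / b * C) * b ^ (n + 1) := by field_simp; ring
      _ = C * b ^ (n + 1) := by rw [hCA]

end Balls

lemma iso_dist_le (hG : G.Connected) (g : G ≃g G) (x y : V) :
    G.dist (g x) (g y) ≤ G.dist x y := by
  obtain ⟨p, hp⟩ := hG.exists_walk_length_eq_dist x y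
  rw [← hp, ← Walk.length_map g.toHom p]
  exact dist_le _

lemma iso_dist (hG : G.Connected) (g : G ≃g G) (x y : V) :
    G.dist (g x) (g y) = G.dist x y :=
  le_antisymm (iso_dist_le hG g x y) (by simpa using iso_dist_le hG g.symm (g x) (g y))

lemma bll_image (hG : G.Connected) [G.LocallyFinite] [DecidableEq V] (g : G ≃g G) (v : V) (n : ℕ) :
    bll G (g v) n = (bll G v n).image g := by
  ext x
  simp only [mem_bll hG, Finset.mem_image]
  constructor
  · intro h
    exact ⟨g.symm x, by rw [← iso_dist hG g]; simpa using h, by simp⟩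
  · rintro ⟨y, hy, rfl⟩
    rwa [iso_dist hG g]

end Vale.Agent.P161
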